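import Vale.Agent.Lib.P193.L.Phi

/-!
# P193 part L, module A13: (A1) and (A3)

`s_0 = z`, `s_0* = z*`, `s_1 = u + m m*`, `s_1* = u* + m m*` is a Leavitt pair:
`s_1* s_1 = u* u + u* m m* + m m* u + m m* m m* = (1 - m m*) + 0 + 0 + m m* = 1` (`u* u = z z* + u u* = 1 - m m*`),
`s_0* s_1 = z* u + z* m m* = 0`, `s_1* s_0 = u* z + m m* z = 0`, `z z* + s_1 s_1* = z z* + u u* + m m* = 1`
(`u m = 0`, `m* u* = 0`).

(A3): `e = 1 - m m* = z z* + u u*` commutes with `φ(r)` (`phi_m`, `phi_ms`), `e² = e`;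
`φ'(r) = e φ(r)` is a non-unital ring homomorphism; `u0 = s_0`, `u1 = s_1`:
`z r z* = φ(r) z z*`, `s_1 e = u` (`u m m* = 0`), so
`s_1 φ'(r) s_1* = u φ(r) s_1* = φ(r) u (u* + m m*) = φ(r) u u*`, and
`z r z* + s_1 φ'(r) s_1* = φ(r) (z z* + u u*) = φ(r) e = φ'(r)`.
-/

namespace P193.L

universe u
variable {T : Type u} [Ring T]

/-- `u* u u* = u*` -/
theorem IsLFam.uuu {l : Bool → Ltr → ℕ → T} (h : IsLFam l) (n : ℕ) :
    (l false .z n * l true .z n + l false .u n * l true .u n) * l true .u n = l true .u n := by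
  have h1 : l false .z n * l true .z n + l false .u n * l true .u n
      = 1 - l false .m n * l true .m n := by
    rw [← h.part]; abel
  rw [h1, sub_mul, one_mul, mul_assoc, h.ms_mul_us, mul_zero, sub_zero]

/-- the isometry `s_0 = z` -/
def Sys.s0 (S : Sys T) : Isom T := ⟨S.l false .z 0, S.l true .z 0, S.fam.zz 0⟩

/-- the isometry `s_1 = u + m m*` -/
def Sys.s1 (S : Sys T) : Isom T :=
  ⟨S.l false .u 0 + S.l false .m 0 * S.l true .m 0,
   S.l true .u 0 + S.l false .m 0 * S.l true .m 0, by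
    have h1 : S.l true .u 0 * (S.l false .m 0 * S.l true .m 0) = 0 := by
      rw [← mul_assoc, S.fam.um, zero_mul]
    have h2 : S.l false .m 0 * S.l true .m 0 * S.l false .u 0 = 0 := by
      rw [mul_assoc, S.fam.mu, mul_zero]
    have h3 : S.l false .m 0 * S.l true .m 0 * (S.l false .m 0 * S.l true .m 0)
        = S.l false .m 0 * S.l true .m 0 := by
      rw [mul_assoc, ← mul_assoc (S.l true .m 0), S.fam.mm, one_mul]
    rw [add_mul, mul_add, mul_add, h1, h2, h3, S.fam.uu, add_zero, zero_add, S.fam.part]⟩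

theorem Sys.lpair (S : Sys T) : LPair S.s0 S.s1 := by
  refine ⟨⟨?_, ?_⟩, ?_⟩
  · show S.l true .z 0 * (S.l false .u 0 + S.l false .m 0 * S.l true .m 0) = 0
    rw [mul_add, ← mul_assoc, S.fam.zu, S.fam.zm, zero_mul, add_zero]
  · show (S.l true .u 0 + S.l false .m 0 * S.l true .m 0) * S.l false .z 0 = 0
    rw [add_mul, mul_assoc, S.fam.uz, S.fam.mz, mul_zero, add_zero]
  · show S.l false .z 0 * S.l true .z 0 + (S.l false .u 0 + S.l false .m 0 * S.l true .m 0)
      * (S.l true .u 0 + S.l false .m 0 * S.l true .m 0) = 1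
    have h1 : S.l false .u 0 * (S.l false .m 0 * S.l true .m 0) = 0 := by
      rw [← mul_assoc, S.fam.u_mul_m, zero_mul]
    have h2 : S.l false .m 0 * S.l true .m 0 * S.l true .u 0 = 0 := by
      rw [mul_assoc, S.fam.ms_mul_us, mul_zero]
    have h3 : S.l false .m 0 * S.l true .m 0 * (S.l false .m 0 * S.l true .m 0)
        = S.l false .m 0 * S.l true .m 0 := by
      rw [mul_assoc, ← mul_assoc (S.l true .m 0), S.fam.mm, one_mul]
    rw [add_mul, mul_add, mul_add, h1, h2, h3, add_zero, zero_add, ← add_assoc, S.fam.part]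

theorem Sys.leavitt (S : Sys T) : HLeavitt T := ⟨S.s0, S.s1, S.lpair⟩

/-- `e = z z* + u u*` -/
def Sys.e (S : Sys T) : T := S.l false .z 0 * S.l true .z 0 + S.l false .u 0 * S.l true .u 0

theorem Sys.e_comm (S : Sys T) (r : T) : S.e * S.φ r = S.φ r * S.e := by
  unfold Sys.e
  rw [add_mul, mul_add, mul_assoc, S.phi_zs, ← mul_assoc, ← S.phi_z, mul_assoc,
    mul_assoc (S.l false .u 0), S.phi_us, ← mul_assoc (S.l false .u 0), ← S.phi_u, mul_assoc]

theorem Sys.e_e (S : Sys T) : S.e * S.e = S.e := by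
  unfold Sys.e
  have h1 : S.l false .z 0 * S.l true .z 0 + S.l false .u 0 * S.l true .u 0
      = 1 - S.l false .m 0 * S.l true .m 0 := by
    rw [← S.fam.part 0]; abel
  have h3 : S.l false .m 0 * S.l true .m 0 * (S.l false .m 0 * S.l true .m 0)
        = S.l false .m 0 * S.l true .m 0 := by
    rw [mul_assoc, ← mul_assoc (S.l true .m 0), S.fam.mm, one_mul]
  rw [h1, sub_mul, mul_sub, mul_sub, h3, one_mul, one_mul, mul_one, sub_self, sub_zero]

/-- `r ↦ e φ(r)` -/
def Sys.rho (S : Sys T) : T →ₙ+* T where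
  toFun r := S.e * S.φ r
  map_mul' a b := by
    show S.e * S.φ (a * b) = S.e * S.φ a * (S.e * S.φ b)
    rw [map_mul, mul_assoc S.e (S.φ a), ← mul_assoc (S.φ a) S.e, ← S.e_comm, mul_assoc S.e (S.φ a),
      ← mul_assoc S.e S.e, S.e_e]
  map_zero' := by
    show S.e * S.φ 0 = 0
    rw [map_zero, mul_zero]
  map_add' a b := by
    show S.e * S.φ (a + b) = S.e * S.φ a + S.e * S.φ b
    rw [map_add, mul_add]

theorem Sys.s1_e (S : Sys T) : S.s1.val * S.e = S.l false .u 0 := by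
  show (S.l false .u 0 + S.l false .m 0 * S.l true .m 0) * S.e = _
  have h1 : S.e = 1 - S.l false .m 0 * S.l true .m 0 := by
    unfold Sys.e
    rw [← S.fam.part 0]; abel
  have h3 : S.l false .m 0 * S.l true .m 0 * (S.l false .m 0 * S.l true .m 0)
        = S.l false .m 0 * S.l true .m 0 := by
    rw [mul_assoc, ← mul_assoc (S.l true .m 0), S.fam.mm, one_mul]
  have h4 : S.l false .u 0 * (S.l false .m 0 * S.l true .m 0) = 0 := by
      rw [← mul_assoc, S.fam.u_mul_m, zero_mul]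
  rw [h1, mul_sub, mul_one, add_mul, h3, h4]
  abel

theorem Sys.u_s1 (S : Sys T) :
    S.l false .u 0 * S.s1.st = S.l false .u 0 * S.l true .u 0 := by
  show S.l false .u 0 * (S.l true .u 0 + S.l false .m 0 * S.l true .m 0) = _
  rw [mul_add, ← mul_assoc (S.l false .u 0) (S.l false .m 0), S.fam.u_mul_m, zero_mul, add_zero]

theorem Sys.rep (S : Sys T) : HRep T := by
  refine ⟨S.rho, S.s0, S.s1, S.lpair.1, fun r => ?_⟩
  show S.e * S.φ r = S.l false .z 0 * r * S.l true .z 0 + S.s1.val * (S.e * S.φ r) * S.s1.st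
  rw [← mul_assoc S.s1.val, S.s1_e, ← S.phi_u, mul_assoc (S.φ r), S.u_s1, ← S.phi_z, mul_assoc,
    ← mul_add, S.e_comm]
  rfl

end P193.L
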