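import Vale.Agent.Lib.P193.Defs

/-!
# P193 (Boone-Higman), part L: definitions

See `PART_L.md`. Stacks of items; items are numbers `0, U0, UU0, ...` or pairs `m y y'` of items. Letters: `z` (push the
number `0`), `u` (increment the number on the top), `m` (pair the two top items), and their stars
(partial inverses); the letter of level `n` acts below the first `n` items.
`l false x n` is the plain letter `x` of level `n`, `l true x n` is the star letter.
-/

namespace P193.L

universe u v

/-- the three letters -/
inductive Ltr
  | z | u | m
  deriving DecidableEq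

/-- arity -/
def Ltr.ar : Ltr → ℕ
  | .z => 0
  | .u => 1
  | .m => 2

/-- a family of letters of all levels satisfying all relations `(a_n)`, `(b_{n,k})` -/
structure IsLFam {T : Type u} [Ring T] (l : Bool → Ltr → ℕ → T) : Prop where
  zz : ∀ n, l true .z n * l false .z n = 1
  mm : ∀ n, l true .m n * l false .m n = 1
  zu : ∀ n, l true .z n * l false .u n = 0
  zm : ∀ n, l true .z n * l false .m n = 0
  uz : ∀ n, l true .u n * l false .z n = 0
  um : ∀ n, l true .u n * l false .m n = 0
  mz : ∀ n, l true .m n * l false .z n = 0
  mu : ∀ n, l true .m n * l false .u n = 0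
  part : ∀ n, l false .z n * l true .z n + l false .u n * l true .u n
    + l false .m n * l true .m n = 1
  uu : ∀ n, l true .u n * l false .u n
    = l false .z n * l true .z n + l false .u n * l true .u n
  b1 : ∀ (n k : ℕ) (st : Bool) (x y : Ltr), k < n →
    l st x n * l false y k = l false y k * l st x (n + y.ar - 1)
  b2 : ∀ (n k : ℕ) (st : Bool) (x y : Ltr), k < n →
    l true y k * l st x n = l st x (n + y.ar - 1) * l true y k

/-- letters of all levels from the letters of level 0 (`g st x false`) and 1 (`g st x true`):
`x^(n+1) = m*^(0) x^(n) m^(0)` for `n ≥ 1` -/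
def lev {S : Type u} [Mul S] (g : Bool → Ltr → Bool → S) (st : Bool) (x : Ltr) : ℕ → S
  | 0 => g st x false
  | 1 => g st x true
  | (n + 2) => g true .m false * lev g st x (n + 1) * g false .m false

section Rel
variable {S : Type u} [Ring S]

/-- relators `(a_n)` -/
def aRel (g : Bool → Ltr → Bool → S) (n : ℕ) : List S :=
  [lev g true .z n * lev g false .z n - 1,
   lev g true .m n * lev g false .m n - 1,
   lev g true .z n * lev g false .u n,
   lev g true .z n * lev g false .m n,
   lev g true .u n * lev g false .z n,
   lev g true .u n * lev g false .m n,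
   lev g true .m n * lev g false .z n,
   lev g true .m n * lev g false .u n,
   lev g false .z n * lev g true .z n + lev g false .u n * lev g true .u n
    + lev g false .m n * lev g true .m n - 1,
   lev g true .u n * lev g false .u n
    - (lev g false .z n * lev g true .z n + lev g false .u n * lev g true .u n)]

/-- relators `(b_{n,k})` -/
def bRel (g : Bool → Ltr → Bool → S) (n k : ℕ) (st : Bool) (x y : Ltr) : List S :=
  [lev g st x n * lev g false y k - lev g false y k * lev g st x (n + y.ar - 1),
   lev g true y k * lev g st x n - lev g st x (n + y.ar - 1) * lev g true y k]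

/-- the finite list of relators -/
def relList (g : Bool → Ltr → Bool → S) : List S :=
  aRel g 0 ++ aRel g 1 ++
    ([(1, 0), (2, 0), (3, 0), (2, 1), (3, 1), (4, 1)] : List (ℕ × ℕ)).flatMap fun nk =>
      [false, true].flatMap fun st => [Ltr.z, Ltr.u, Ltr.m].flatMap fun x =>
        [Ltr.z, Ltr.u, Ltr.m].flatMap fun y => bRel g nk.1 nk.2 st x y

/-- the letters of level 0 and 1 satisfy the finitely many relations -/
def LRel (g : Bool → Ltr → Bool → S) : Prop := ∀ r ∈ relList g, r = 0

end Rel

/-- generators of `L` -/
abbrev Gen : Type := Bool × Ltr × Bool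

/-- the free algebra over `ZMod 2` with 12 generators -/
abbrev FA : Type := FreeAlgebra (ZMod 2) Gen

/-- the generators in the free algebra -/
def gens (st : Bool) (x : Ltr) (i : Bool) : FA := FreeAlgebra.ι (ZMod 2) (st, x, i)

/-- the relation defining `L` -/
def relL (a b : FA) : Prop := a ∈ relList gens ∧ b = 0

/-- the explicit finitely presented algebra `L` -/
abbrev LAlg : Type := RingQuot relL

/-- the generators of `L` -/
noncomputable def gL (st : Bool) (x : Ltr) (i : Bool) : LAlg :=
  RingQuot.mkAlgHom (ZMod 2) relL (gens st x i)

/-- the abstract situation: `T` is generated by the subring `D` and the letters, `D` commutes with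
the letters, `φ` shifts the level -/
structure Sys (T : Type u) [Ring T] where
  l : Bool → Ltr → ℕ → T
  fam : IsLFam l
  D : Subring T
  comm : ∀ d ∈ D, ∀ st x n, Commute d (l st x n)
  gen : Subring.closure ((D : Set T) ∪ {t | ∃ st x n, t = l st x n}) = ⊤
  φ : T →+* T
  φl : ∀ st x n, φ (l st x n) = l st x (n + 1)
  φD : ∀ d ∈ D, φ d = d

section Mon
variable {T : Type u} [Ring T]

/-- words in letters with levels -/
abbrev MW : Type := List (Ltr × ℕ)

/-- product of plain letters -/
def mon (l : Bool → Ltr → ℕ → T) (w : MW) : T := (w.map fun a => l false a.1 a.2).prod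

/-- product of star letters (in the same order) -/
def smon (l : Bool → Ltr → ℕ → T) (w : MW) : T := (w.map fun a => l true a.1 a.2).prod

/-- `S_w`: product of the plain letters of level 0 -/
def W (l : Bool → Ltr → ℕ → T) (w : List Ltr) : T := (w.map fun x => l false x 0).prod

/-- `S_w*`: product of the star letters of level 0, in the reverse order -/
def Ws (l : Bool → Ltr → ℕ → T) (w : List Ltr) : T := (w.reverse.map fun x => l true x 0).prod

/-- normal forms `S_{w_0} φ(S_{w_1}) φ²(S_{w_2}) ...` -/
def nf (S : Sys T) : List (List Ltr) → T
  | [] => 1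
  | w :: ws => W S.l w * S.φ (nf S ws)

/-- no factor `Um` -/
def Good (w : List Ltr) : Prop := ¬ [Ltr.u, Ltr.m] <:+: w

/-- the word `U^L 0` -/
def hh (L : ℕ) : List Ltr := List.replicate L .u ++ [.z]

/-- the word `w_0 g w_1 g ... w_k g` -/
def enc (g : List Ltr) (ws : List (List Ltr)) : List Ltr := (ws.map fun w => w ++ g).flatten

end Mon

/-- items: numbers and pairs -/
inductive Item
  | num : ℕ → Item
  | pair : Item → Item → Item
  deriving DecidableEq

/-- the (closed) word of an item, in Polish notation -/
def Item.word : Item → List Ltr
  | .num k => hh k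
  | .pair a b => .m :: (a.word ++ b.word)

/-- the word of a sequence of items -/
def seqW (r : List Item) : List Ltr := (r.map Item.word).flatten

end P193.L
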