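import Vale.Agent.Lib.P193.L.Phi

/-!
# P193 part L, module Part: partition of unity at level `n`

`1 = Σ_{i<k} (u^i z)(z* u*^i) + u^k u*^k + m m*`, by induction on `k ≥ 1`: insert `1 = z z* + u u* + m m*`
in the middle of `u^k u*^k`, and use `u^k m = 0`.
`sw δ` is the star of the plain monomial `δ`. `exists_mul_ne_zero`: if `r ≠ 0` then `r δ ≠ 0` for some `δ` of the three
types (otherwise `r = r · 1 = Σ (r δ) δ* = 0`).
-/

namespace P193.L

universe u
variable {T : Type u} [Ring T]

theorem IsLFam.partition {l : Bool → Ltr → ℕ → T} (h : IsLFam l) (n k : ℕ) (hk : 1 ≤ k) :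
    (∑ i ∈ Finset.range k, l false .u n ^ i * l false .z n * (l true .z n * l true .u n ^ i))
      + l false .u n ^ k * l true .u n ^ k + l false .m n * l true .m n = 1 := by
  induction k, hk using Nat.le_induction with
  | base =>
    simpa using h.part n
  | succ k hk ih =>
    have hum : l false .u n ^ k * l false .m n = 0 := by
      obtain ⟨j, rfl⟩ : ∃ j, k = j + 1 := ⟨k - 1, by omega⟩
      rw [pow_succ, mul_assoc, h.u_mul_m, mul_zero]
    have key : l false .u n ^ k * l true .u n ^ k
        = l false .u n ^ k * l false .z n * (l true .z n * l true .u n ^ k)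
          + l false .u n ^ (k + 1) * l true .u n ^ (k + 1) := by
      calc l false .u n ^ k * l true .u n ^ k
          = l false .u n ^ k * (l false .z n * l true .z n + l false .u n * l true .u n
              + l false .m n * l true .m n) * l true .u n ^ k := by
            rw [h.part, mul_one]
        _ = l false .u n ^ k * l false .z n * (l true .z n * l true .u n ^ k)
            + l false .u n ^ (k + 1) * l true .u n ^ (k + 1)
            + (l false .u n ^ k * l false .m n) * (l true .m n * l true .u n ^ k) := by
            rw [pow_succ (l false .u n), pow_succ' (l true .u n)]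
            noncomm_ring
        _ = _ := by rw [hum, zero_mul, add_zero]
    rw [Finset.sum_range_succ]
    rw [key] at ih
    rw [← ih]
    abel

theorem IsLFam.exists_mul_ne_zero {l : Bool → Ltr → ℕ → T} (h : IsLFam l) (n k : ℕ) (hk : 1 ≤ k)
    {r : T} (hr : r ≠ 0) : ∃ δ : MW, ((∃ i, δ = List.replicate i (Ltr.u, n) ++ [(Ltr.z, n)]) ∨
      δ = List.replicate k (Ltr.u, n) ∨ δ = [(Ltr.m, n)]) ∧ r * mon l δ ≠ 0 := by
  by_contra hcon
  push Not at hcon
  apply hr
  have h1 : ∀ i, r * (l false .u n ^ i * l false .z n) = 0 := by
    intro i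
    have := hcon (List.replicate i (Ltr.u, n) ++ [(Ltr.z, n)]) (Or.inl ⟨i, rfl⟩)
    simpa [mon] using this
  have h2 : r * l false .u n ^ k = 0 := by
    have := hcon (List.replicate k (Ltr.u, n)) (Or.inr (Or.inl rfl))
    simpa [mon] using this
  have h3 : r * l false .m n = 0 := by
    have := hcon [(Ltr.m, n)] (Or.inr (Or.inr rfl))
    simpa [mon] using this
  calc r = r * 1 := (mul_one r).symm
    _ = 0 := by
      rw [← h.partition n k hk, mul_add, mul_add, Finset.mul_sum]
      rw [← mul_assoc r (l false .u n ^ k), h2, zero_mul, ← mul_assoc r (l false .m n), h3,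
        zero_mul, add_zero, add_zero]
      refine Finset.sum_eq_zero fun i _ => ?_
      rw [← mul_assoc r, h1 i, zero_mul]

end P193.L
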