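import Vale.Agent.Lib.P193.L.Phi

/-!
# P193 part L, module Pass: moving star letters through the test words (L4)

`IsDel b n δ`: `δ` is one of `U^i 0`, `U^j` with `j > b`, `m`, empty (all letters of level `n`).
`pass1`: one star letter `x*^(n')` against `δ ≠ []` of level `n`, budget `b + 1`:
* `n' < n`: (`b2`, `st = false`) `x*^(n') δ^(n) = δ^(n - 1 + ar x) x*^(n')`;
* `n' > n`: (`b1`, `st = true`) `x*^(n') δ = δ x*^(n'')`;
* `n' = n`: `u* U^j = U^(j-1)` if `j ≥ 2` (`u* u u = (1 - m m*) u = u`), `u* U^i 0 = U^(i-1) 0` if `i ≥ 1`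
  (`u* u z = (z z* + u u*) z = z`), `z* z = 1`, `m* m = 1`, the others are `0`: the star letter is consumed.
`pass`: induction on `β` from the right (`List.reverseRecOn`), budget `b = β.length`. If `δ = []` nothing
has to be done. `pass_lt`: the last letter of `β` has level `n` and `δ ≠ []` has level `n`: it is consumed.
-/

namespace P193.L

universe u
variable {T : Type u} [Ring T]

/-- test words at level `n` -/
def IsDel (b n : ℕ) (δ : MW) : Prop :=
  (∃ i, δ = List.replicate i (Ltr.u, n) ++ [(Ltr.z, n)]) ∨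
  (∃ j, b < j ∧ δ = List.replicate j (Ltr.u, n)) ∨ δ = [(Ltr.m, n)] ∨ δ = []

theorem IsDel.mono {b c n : ℕ} {δ : MW} (h : IsDel b n δ) (hcb : c ≤ b) : IsDel c n δ := by
  rcases h with h | ⟨j, hj, rfl⟩ | h | h
  · exact Or.inl h
  · exact Or.inr (Or.inl ⟨j, by omega, rfl⟩)
  · exact Or.inr (Or.inr (Or.inl h))
  · exact Or.inr (Or.inr (Or.inr h))

private theorem mon_nil' (l : Bool → Ltr → ℕ → T) : mon l [] = 1 := by simp [mon]

private theorem mon_cons' (l : Bool → Ltr → ℕ → T) (a : Ltr × ℕ) (w : MW) :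
    mon l (a :: w) = l false a.1 a.2 * mon l w := by simp [mon]

private theorem mon_rep (l : Bool → Ltr → ℕ → T) (i : ℕ) (a : Ltr × ℕ) :
    mon l (List.replicate i a) = (l false a.1 a.2) ^ i := by simp [mon]

private theorem mon_append' (l : Bool → Ltr → ℕ → T) (v w : MW) :
    mon l (v ++ w) = mon l v * mon l w := by simp [mon]

private theorem smon_nil' (l : Bool → Ltr → ℕ → T) : smon l [] = 1 := by simp [smon]

private theorem smon_concat (l : Bool → Ltr → ℕ → T) (w : MW) (a : Ltr × ℕ) :
    smon l (w ++ [a]) = smon l w * l true a.1 a.2 := by simp [smon]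

private theorem pass_low {l : Bool → Ltr → ℕ → T} (h : IsLFam l) (x : Ltr) {n' n : ℕ}
    (hn : n' < n) (w : MW) (hw : ∀ a ∈ w, a.2 = n) :
    l true x n' * mon l w = mon l (w.map fun a => (a.1, n + x.ar - 1)) * l true x n' := by
  induction w with
  | nil => simp [mon]
  | cons a w ih =>
    have ha : a.2 = n := hw a (by simp)
    have ih' := ih fun b hb => hw b (by simp [hb])
    rw [List.map_cons, mon_cons', mon_cons', ← mul_assoc, ha, h.b2 n n' false a.1 x hn,
      mul_assoc, ih', ← mul_assoc]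

private theorem uuu {l : Bool → Ltr → ℕ → T} (h : IsLFam l) (n : ℕ) :
    l true .u n * l false .u n * l false .u n = l false .u n := by
  have h1 : l false .u n * (l true .u n * l false .u n) = l false .u n := by
    have e : l true .u n * l false .u n = 1 - l false .m n * l true .m n := by
      rw [h.uu, ← h.part n]; abel
    rw [e, mul_sub, mul_one, ← mul_assoc, h.u_mul_m, zero_mul, sub_zero]
  rw [h.uu, add_mul, mul_assoc, h.zu, mul_zero, zero_add, mul_assoc, h1]

private theorem uuz {l : Bool → Ltr → ℕ → T} (h : IsLFam l) (n : ℕ) :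
    l true .u n * l false .u n * l false .z n = l false .z n := by
  rw [h.uu, add_mul, mul_assoc, h.zz, mul_one, mul_assoc, h.uz, mul_zero, add_zero]

theorem pass1 {l : Bool → Ltr → ℕ → T} (h : IsLFam l) (x : Ltr) (n' b n : ℕ) (δ : MW)
    (hδ : IsDel (b + 1) n δ) :
    l true x n' * mon l δ = 0 ∨
    (∃ n₂ δ', IsDel b n₂ δ' ∧ l true x n' * mon l δ = mon l δ') ∨
    (n' ≠ n ∨ δ = []) ∧
      ∃ n₂ n₃ δ', IsDel (b + 1) n₂ δ' ∧ l true x n' * mon l δ = mon l δ' * l true x n₃ := by
  rcases Nat.lt_trichotomy n' n with hlt | heq | hgt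
  · right; right
    refine ⟨Or.inl hlt.ne, n + x.ar - 1, n', δ.map (fun a => (a.1, n + x.ar - 1)), ?_, ?_⟩
    · rcases hδ with ⟨i, rfl⟩ | ⟨j, hj, rfl⟩ | rfl | rfl
      · exact Or.inl ⟨i, by simp⟩
      · exact Or.inr (Or.inl ⟨j, hj, by simp⟩)
      · exact Or.inr (Or.inr (Or.inl (by simp)))
      · exact Or.inr (Or.inr (Or.inr (by simp)))
    · refine pass_low h x hlt δ ?_
      rcases hδ with ⟨i, rfl⟩ | ⟨j, hj, rfl⟩ | rfl | rfl
      · intro a ha
        rcases List.mem_append.1 ha with ha | ha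
        · rw [List.eq_of_mem_replicate ha]
        · rw [List.mem_singleton.1 ha]
      · intro a ha
        rw [List.eq_of_mem_replicate ha]
      · intro a ha
        rw [List.mem_singleton.1 ha]
      · intro a ha
        simp at ha
  · subst heq
    rcases hδ with ⟨i, rfl⟩ | ⟨j, hj, rfl⟩ | rfl | rfl
    · rw [mon_append', mon_rep, mon_cons', mon_nil', mul_one]
      show l true x n' * (l false .u n' ^ i * l false .z n') = 0 ∨ _
      cases i with
      | zero =>
        rw [pow_zero, one_mul]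
        cases x with
        | z => exact Or.inr (Or.inl ⟨n', [], Or.inr (Or.inr (Or.inr rfl)), by
            rw [h.zz, mon_nil']⟩)
        | u => exact Or.inl (h.uz n')
        | m => exact Or.inl (h.mz n')
      | succ i =>
        cases x with
        | z => left; rw [pow_succ', mul_assoc, ← mul_assoc, h.zu, zero_mul]
        | m => left; rw [pow_succ', mul_assoc, ← mul_assoc, h.mu, zero_mul]
        | u =>
          right; left
          refine ⟨n', List.replicate i (Ltr.u, n') ++ [(Ltr.z, n')], Or.inl ⟨i, rfl⟩, ?_⟩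
          rw [mon_append', mon_rep, mon_cons', mon_nil', mul_one, pow_succ', mul_assoc,
            ← mul_assoc]
          cases i with
          | zero =>
            rw [pow_zero, one_mul]
            exact uuz h n'
          | succ i => rw [pow_succ', ← mul_assoc, ← mul_assoc, uuu h]
    · rw [mon_rep]
      show l true x n' * l false .u n' ^ j = 0 ∨ _
      obtain ⟨i, rfl⟩ : ∃ i, j = i + 2 := ⟨j - 2, by omega⟩
      cases x with
      | z => left; rw [pow_succ', ← mul_assoc, h.zu, zero_mul]
      | m => left; rw [pow_succ', ← mul_assoc, h.mu, zero_mul]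
      | u =>
        right; left
        refine ⟨n', List.replicate (i + 1) (Ltr.u, n'), Or.inr (Or.inl ⟨i + 1, by omega, rfl⟩), ?_⟩
        rw [mon_rep, pow_succ' _ (i + 1), ← mul_assoc, pow_succ', ← mul_assoc, uuu h]
    · rw [mon_cons', mon_nil', mul_one]
      show l true x n' * l false .m n' = 0 ∨ _
      cases x with
      | z => exact Or.inl (h.zm n')
      | u => exact Or.inl (h.um n')
      | m => exact Or.inr (Or.inl ⟨n', [], Or.inr (Or.inr (Or.inr rfl)), by
            rw [h.mm, mon_nil']⟩)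
    · right; right
      exact ⟨Or.inr rfl, n', n', [], Or.inr (Or.inr (Or.inr rfl)), by
        rw [mon_nil', mul_one, one_mul]⟩
  · right; right
    have hu : Commute (l true x n') (l false .u n) := by
      have := h.b1 n' n true x .u hgt
      simpa [Commute, SemiconjBy, Ltr.ar] using this
    refine ⟨Or.inl hgt.ne', ?_⟩
    rcases hδ with ⟨i, rfl⟩ | ⟨j, hj, rfl⟩ | rfl | rfl
    · refine ⟨n, n' + Ltr.z.ar - 1, _, Or.inl ⟨i, rfl⟩, ?_⟩
      rw [mon_append', mon_rep, mon_cons', mon_nil', mul_one]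
      show l true x n' * (l false .u n ^ i * l false .z n) =
        l false .u n ^ i * l false .z n * l true x (n' + Ltr.z.ar - 1)
      rw [← mul_assoc, (hu.pow_right i).eq, mul_assoc, h.b1 n' n true x .z hgt, mul_assoc]
    · refine ⟨n, n', _, Or.inr (Or.inl ⟨j, hj, rfl⟩), ?_⟩
      rw [mon_rep]
      exact (hu.pow_right j).eq
    · refine ⟨n, n' + Ltr.m.ar - 1, _, Or.inr (Or.inr (Or.inl rfl)), ?_⟩
      rw [mon_cons', mon_nil', mul_one]
      exact h.b1 n' n true x .m hgt
    · exact ⟨n, n', [], Or.inr (Or.inr (Or.inr rfl)), by rw [mon_nil', mul_one, one_mul]⟩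

theorem pass {l : Bool → Ltr → ℕ → T} (h : IsLFam l) (β : MW) (n : ℕ) (δ : MW)
    (hδ : IsDel β.length n δ) :
    smon l β * mon l δ = 0 ∨
    ∃ δ' β' : MW, β'.length ≤ β.length ∧ smon l β * mon l δ = mon l δ' * smon l β' := by
  induction β using List.reverseRecOn generalizing n δ with
  | nil => exact Or.inr ⟨δ, [], le_rfl, by rw [smon_nil', one_mul, mul_one]⟩
  | append_singleton β a ih =>
    obtain ⟨x, n'⟩ := a
    rw [List.length_append, List.length_singleton] at hδ ⊢
    rw [smon_concat, mul_assoc]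
    rcases pass1 h x n' β.length n δ hδ with h0 | ⟨n₂, δ', hδ', h1⟩ | ⟨-, n₂, n₃, δ', hδ', h1⟩
    · exact Or.inl (by rw [h0, mul_zero])
    · rw [h1]
      rcases ih n₂ δ' hδ' with h2 | ⟨δ'', β'', hle, h2⟩
      · exact Or.inl h2
      · exact Or.inr ⟨δ'', β'', by omega, h2⟩
    · rw [h1, ← mul_assoc]
      rcases ih n₂ δ' (hδ'.mono (by omega)) with h2 | ⟨δ'', β'', hle, h2⟩
      · exact Or.inl (by rw [h2, zero_mul])
      · refine Or.inr ⟨δ'', β'' ++ [(x, n₃)], ?_, ?_⟩
        · rw [List.length_append, List.length_singleton]; omega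
        · rw [h2, smon_concat, mul_assoc]

theorem pass_lt {l : Bool → Ltr → ℕ → T} (h : IsLFam l) (β : MW) (x : Ltr) (n : ℕ) (δ : MW)
    (hδ : IsDel (β.length + 1) n δ) (hne : δ ≠ []) :
    smon l (β ++ [(x, n)]) * mon l δ = 0 ∨
    ∃ δ' β' : MW, β'.length ≤ β.length ∧ smon l (β ++ [(x, n)]) * mon l δ = mon l δ' * smon l β' := by
  rw [smon_concat, mul_assoc]
  rcases pass1 h x n β.length n δ hδ with h0 | ⟨n₂, δ', hδ', h1⟩ | ⟨hc, -⟩
  · exact Or.inl (by rw [h0, mul_zero])
  · rw [h1]
    exact pass h β n₂ δ' hδ'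
  · rcases hc with hc | hc
    · exact absurd rfl hc
    · exact absurd hc hne

end P193.L
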