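import Vale.Agent.Lib.P193.L.Span
import Vale.Agent.Lib.P193.L.Part
import Vale.Agent.Lib.P193.L.Pass

/-!
# P193 part L, module Elim: star elimination (L4)

For a list `L` of triples `(d, α, β)` (`r = Σ d (mon α * smon β)`, `d ∈ D`) use strong induction on the number
`μ(L) = Σ |β|` of star letters. If `μ(L) = 0` all `β` are `[]`, take `γ = 1`. Otherwise some `β = β₀ ++ [(x, n)]`;
take `k > max |β|`, `k ≥ 1` (e.g. `k = μ(L) + 1`) and `δ` of level `n` with `r * mon δ ≠ 0` (`exists_mul_ne_zero`).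
By `pass` (`pass_lt` for the term with `β₀ ++ [(x, n)]`) each `smon β * mon δ` is `0` (drop the term) or
`mon δ' * smon β'` with `|β'| ≤ |β|` (`<` for this term), so `r * mon δ` has a list with smaller `μ`
(`mon α * mon δ' = mon (α ++ δ')`); the induction hypothesis gives `γ'`, take `γ = mon δ * γ'`.
-/

namespace P193.L

universe u
variable {T : Type u} [Ring T]

theorem elim_mon_append (l : Bool → Ltr → ℕ → T) (a b : MW) : mon l (a ++ b) = mon l a * mon l b := by
  simp [mon, List.map_append, List.prod_append]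

/-- the value of a list of triples -/
def tval (l : Bool → Ltr → ℕ → T) (L : List (T × MW × MW)) : T :=
  (L.map fun a => a.1 * (mon l a.2.1 * smon l a.2.2)).sum

/-- the number of star letters -/
def tmu (L : List (T × MW × MW)) : ℕ := (L.map fun a => a.2.2.length).sum

/-- one term against a test word -/
theorem term_pass {l : Bool → Ltr → ℕ → T} (h : IsLFam l) (D : Subring T) (a : T × MW × MW)
    (ha : a.1 ∈ D) (n : ℕ) (δ : MW) (hδ : ∀ b, b ≤ a.2.2.length → IsDel b n δ) (hne : δ ≠ []) :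
    ∃ L' : List (T × MW × MW), (∀ b ∈ L', b.1 ∈ D) ∧
      a.1 * (mon l a.2.1 * smon l a.2.2) * mon l δ = tval l L' ∧ tmu L' ≤ a.2.2.length ∧
      ((∃ β₀ x, a.2.2 = β₀ ++ [(x, n)]) → tmu L' < a.2.2.length) := by
  by_cases hex : ∃ β₀ x, a.2.2 = β₀ ++ [(x, n)]
  · obtain ⟨β₀, x, hβ⟩ := hex
    have hlen : a.2.2.length = β₀.length + 1 := by rw [hβ]; simp
    have h1 := pass_lt h β₀ x n δ (hδ _ (by rw [hlen])) hne
    rw [← hβ] at h1
    rcases h1 with h1 | ⟨δ', β', hle, h1⟩
    · refine ⟨[], by simp, ?_, ?_, ?_⟩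
      · rw [mul_assoc, mul_assoc, h1]; simp [tval]
      · simp [tmu]
      · intro _; simp [tmu, hlen]
    · refine ⟨[(a.1, a.2.1 ++ δ', β')], by simpa using ha, ?_, ?_, ?_⟩
      · rw [mul_assoc, mul_assoc, h1]; simp [tval, elim_mon_append, mul_assoc]
      · simp only [tmu, List.map_cons, List.map_nil, List.sum_cons, List.sum_nil, hlen]; omega
      · intro _
        simp only [tmu, List.map_cons, List.map_nil, List.sum_cons, List.sum_nil, hlen]; omega
  · have h1 := pass h a.2.2 n δ (hδ _ le_rfl)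
    rcases h1 with h1 | ⟨δ', β', hle, h1⟩
    · refine ⟨[], by simp, ?_, ?_, fun hc => absurd hc hex⟩
      · rw [mul_assoc, mul_assoc, h1]; simp [tval]
      · simp [tmu]
    · refine ⟨[(a.1, a.2.1 ++ δ', β')], by simpa using ha, ?_, ?_, fun hc => absurd hc hex⟩
      · rw [mul_assoc, mul_assoc, h1]; simp [tval, elim_mon_append, mul_assoc]
      · simp only [tmu, List.map_cons, List.map_nil, List.sum_cons, List.sum_nil]; omega

theorem tval_append (l : Bool → Ltr → ℕ → T) (L M : List (T × MW × MW)) :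
    tval l (L ++ M) = tval l L + tval l M := by
  simp [tval]

omit [Ring T] in
theorem tmu_append (L M : List (T × MW × MW)) : tmu (L ++ M) = tmu L + tmu M := by
  simp [tmu]

theorem list_pass {l : Bool → Ltr → ℕ → T} (h : IsLFam l) (D : Subring T) (n : ℕ) (δ : MW)
    (hne : δ ≠ []) (L : List (T × MW × MW)) :
    (∀ a ∈ L, a.1 ∈ D) → (∀ a ∈ L, ∀ b, b ≤ a.2.2.length → IsDel b n δ) →
    ∃ L' : List (T × MW × MW), (∀ b ∈ L', b.1 ∈ D) ∧ tval l L * mon l δ = tval l L' ∧
      tmu L' ≤ tmu L ∧ ((∃ a ∈ L, ∃ β₀ x, a.2.2 = β₀ ++ [(x, n)]) → tmu L' < tmu L) := by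
  induction L with
  | nil =>
    intro _ _
    exact ⟨[], by simp, by simp [tval], le_rfl, fun ⟨a, ha, _⟩ => absurd ha (by simp)⟩
  | cons a L ih =>
    intro hD hdel
    obtain ⟨L₁, h1, h2, h3, h4⟩ := ih (fun b hb => hD b (List.mem_cons_of_mem _ hb))
      (fun b hb => hdel b (List.mem_cons_of_mem _ hb))
    obtain ⟨L₂, g1, g2, g3, g4⟩ := term_pass h D a (hD a List.mem_cons_self) n δ
      (hdel a List.mem_cons_self) hne
    have e : tmu (a :: L) = a.2.2.length + tmu L := by simp [tmu]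
    refine ⟨L₂ ++ L₁, ?_, ?_, ?_, ?_⟩
    · intro b hb
      rcases List.mem_append.1 hb with hb | hb
      · exact g1 b hb
      · exact h1 b hb
    · rw [tval_append, ← g2, ← h2]
      simp only [tval, List.map_cons, List.sum_cons, add_mul]
    · rw [tmu_append, e]; omega
    · rintro ⟨b, hb, hb2⟩
      rw [tmu_append, e]
      rcases List.mem_cons.1 hb with hb | hb
      · subst hb
        have := g4 hb2
        omega
      · have := h4 ⟨b, hb, hb2⟩
        omega

theorem elim_aux (S : Sys T) (N : ℕ) : ∀ L : List (T × MW × MW), (∀ a ∈ L, a.1 ∈ S.D) →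
    tmu L ≤ N → tval S.l L ≠ 0 → ∃ γ : T, tval S.l L * γ ≠ 0 ∧
      ∃ L' : List (T × MW), (∀ a ∈ L', a.1 ∈ S.D) ∧
      tval S.l L * γ = (L'.map fun a => a.1 * mon S.l a.2).sum := by
  induction N with
  | zero =>
    intro L hD hmu hne
    refine ⟨1, by rwa [mul_one], L.map fun a => (a.1, a.2.1), ?_, ?_⟩
    · intro a ha
      obtain ⟨b, hb, rfl⟩ := List.mem_map.1 ha
      exact hD b hb
    · rw [mul_one, tval, List.map_map]
      congr 1
      apply List.map_congr_left
      intro a ha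
      have h0 : a.2.2.length = 0 := by
        have h1 : a.2.2.length ≤ tmu L := by
          apply List.single_le_sum (by simp)
          exact List.mem_map.2 ⟨a, ha, rfl⟩
        omega
      have h1 : a.2.2 = [] := List.length_eq_zero_iff.1 h0
      simp [h1, smon]
  | succ N ih =>
    intro L hD hmu hne
    by_cases hle : tmu L ≤ N
    · exact ih L hD hle hne
    have hex : ∃ a ∈ L, a.2.2 ≠ [] := by
      by_contra hcon
      push Not at hcon
      apply hle
      have : tmu L = 0 := by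
        rw [tmu, List.sum_eq_zero_iff]
        intro x hx
        obtain ⟨b, hb, rfl⟩ := List.mem_map.1 hx
        simp [hcon b hb]
      omega
    obtain ⟨a, ha, hane⟩ := hex
    obtain ⟨β₀, c, hc⟩ : ∃ β₀ c, a.2.2 = β₀ ++ [c] :=
      ⟨_, _, (List.dropLast_append_getLast hane).symm⟩
    obtain ⟨x, n⟩ := c
    obtain ⟨δ, hδ, hδne⟩ := S.fam.exists_mul_ne_zero n (N + 2) (by omega) hne
    have hne' : δ ≠ [] := by
      rcases hδ with ⟨i, rfl⟩ | rfl | rfl
      · simp
      · simp
      · simp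
    have hdel : ∀ a ∈ L, ∀ b, b ≤ a.2.2.length → IsDel b n δ := by
      intro a ha b hb
      have h1 : a.2.2.length ≤ tmu L := by
        apply List.single_le_sum (by simp)
        exact List.mem_map.2 ⟨a, ha, rfl⟩
      rcases hδ with ⟨i, hi⟩ | hi | hi
      · exact Or.inl ⟨i, hi⟩
      · exact Or.inr (Or.inl ⟨N + 2, by omega, hi⟩)
      · exact Or.inr (Or.inr (Or.inl hi))
    obtain ⟨L₁, h1, h2, h3, h4⟩ := list_pass S.fam S.D n δ hne' L hD hdel
    have h5 := h4 ⟨a, ha, β₀, x, hc⟩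
    obtain ⟨γ, hγ, L', g1, g2⟩ := ih L₁ h1 (by omega) (by rw [← h2]; exact hδne)
    refine ⟨mon S.l δ * γ, ?_, L', g1, ?_⟩
    · rw [← mul_assoc, h2]; exact hγ
    · rw [← mul_assoc, h2]; exact g2

theorem Sys.star_elim (S : Sys T) {r : T} (hr : r ≠ 0) : ∃ γ : T, r * γ ≠ 0 ∧
    ∃ L : List (T × MW), (∀ a ∈ L, a.1 ∈ S.D) ∧
      r * γ = (L.map fun a => a.1 * mon S.l a.2).sum := by
  obtain ⟨L, hD, hL⟩ := S.span r
  have hL' : r = tval S.l L := hL
  obtain ⟨γ, h1, L', h2, h3⟩ := elim_aux S (tmu L) L hD le_rfl (by rw [← hL']; exact hr)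
  refine ⟨γ, ?_, L', h2, ?_⟩
  · rw [hL']; exact h1
  · rw [hL']; exact h3

end P193.L
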