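import Vale.Agent.Lib.P193.L.Defs

/-!
# P193 part L, module FP: finitely presented algebras

`finPres_quot`: `f` = `mkAlgHom` composed with the renaming of the generators by a bijection
`Fin n ≃ X`. If `mk y = 0` then `y` is in the two-sided ideal `J` generated by `rel`: e.g. the quotient of the
free algebra by the two-sided ideal `J` (ring congruence `a - b ∈ J`) receives an algebra map
from the `RingQuot` (`RingQuot.liftAlgHom`), and `J = AddSubgroup.closure {a ρ b}`.
`finPres_tensor`: generators: the images of those of `A` and of `B` (`Fin n ⊕ Fin m ≃ Fin (n + m)`),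
relators: those of `A`, of `B`, and `[x_i, y_j]`. Let `Q` = `RingQuot` of the free algebra by these. There
are algebra maps `A → Q`, `B → Q` (by `FinPres A`: the map `FreeAlgebra → Q` kills the kernel of
`FreeAlgebra → A`, which is surjective: `Quotient`/`RingHom.liftOfSurjective`-like), their images commute,
so `Algebra.TensorProduct.lift` gives `A ⊗ B → Q`, and `FreeAlgebra → A ⊗ B → Q` is the
quotient map; use `finPres_quot`-like description of the kernel of the quotient map.
`finPres_L`: `relL` is given by the finite list `relList gens`.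
-/

open scoped TensorProduct Pointwise

namespace P193.L

universe u v

/-- the two-sided ideal generated by `R`, as an additive subgroup -/
def idl {A : Type u} [Ring A] (R : Set A) : AddSubgroup A :=
  AddSubgroup.closure {z | ∃ a b, ∃ ρ ∈ R, z = a * ρ * b}

theorem idl_eq_span {A : Type u} [Ring A] (R : Set A) (z : A) :
    z ∈ TwoSidedIdeal.span R ↔ z ∈ idl R := by
  rw [TwoSidedIdeal.mem_span_iff_mem_addSubgroup_closure, idl]
  have e : (Set.univ : Set A) * R * Set.univ = {z | ∃ a b, ∃ ρ ∈ R, z = a * ρ * b} := by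
    ext z
    constructor
    · rintro ⟨w, ⟨a, -, ρ, hρ, rfl⟩, b, -, rfl⟩
      exact ⟨a, b, ρ, hρ, rfl⟩
    · rintro ⟨a, b, ρ, hρ, rfl⟩
      exact ⟨a * ρ, ⟨a, Set.mem_univ _, ρ, hρ, rfl⟩, b, Set.mem_univ _, rfl⟩
  rw [e]

/-- a ring homomorphism that kills `R` kills the ideal generated by `R` -/
theorem idl_map_zero {A : Type u} {B : Type v} [Ring A] [Ring B] {R : Set A} (f : A →+* B)
    (h : ∀ ρ ∈ R, f ρ = 0) {y : A} (hy : y ∈ idl R) : f y = 0 := by
  induction hy using AddSubgroup.closure_induction with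
  | mem x hx =>
    obtain ⟨a, b, ρ, hρ, rfl⟩ := hx
    rw [map_mul, map_mul, h ρ hρ, mul_zero, zero_mul]
  | zero => exact map_zero f
  | add x y _ _ hx hy => rw [map_add, hx, hy, add_zero]
  | neg x _ hx => rw [map_neg, hx, neg_zero]

/-- the kernel of the quotient map -/
theorem idl_of_mk {A : Type u} [Ring A] [Algebra (ZMod 2) A] (R : Set A) {y : A}
    (h : RingQuot.mkAlgHom (ZMod 2) (fun a b : A => a ∈ R ∧ b = 0) y = 0) : y ∈ idl R := by
  rw [← idl_eq_span]
  have h1 : RingQuot.mkRingHom (fun a b : A => a ∈ R ∧ b = 0) y = 0 := by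
    rw [← RingQuot.mkAlgHom_coe (ZMod 2)]
    exact h
  let q : A →+* (TwoSidedIdeal.span R).ringCon.Quotient := (TwoSidedIdeal.span R).ringCon.mk'
  have hq : ∀ z, q z = 0 ↔ z ∈ TwoSidedIdeal.span R := by
    intro z
    rw [← TwoSidedIdeal.mem_ker, TwoSidedIdeal.ker_ringCon_mk']
  have hw : ∀ ⦃x y : A⦄, (x ∈ R ∧ y = 0) → q x = q y := by
    rintro x y ⟨hx, rfl⟩
    rw [map_zero, hq]
    exact TwoSidedIdeal.subset_span hx
  have h2 := RingQuot.lift_mkRingHom_apply q hw y
  rw [h1, map_zero] at h2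
  exact (hq y).1 h2.symm

/-- a presentation with a finite type of generators -/
theorem finPres_of {A : Type u} [Ring A] [Algebra (ZMod 2) A] {X : Type} [Finite X]
    (f : FreeAlgebra (ZMod 2) X →ₐ[ZMod 2] A) (rel : Finset (FreeAlgebra (ZMod 2) X))
    (hf : Function.Surjective f) (h0 : ∀ ρ ∈ rel, f ρ = 0)
    (h1 : ∀ y, f y = 0 → y ∈ idl (rel : Set (FreeAlgebra (ZMod 2) X))) : FinPres A := by
  classical
  obtain ⟨n, ⟨e⟩⟩ := Finite.exists_equiv_fin X
  let E : FreeAlgebra (ZMod 2) (Fin n) →ₐ[ZMod 2] FreeAlgebra (ZMod 2) X :=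
    FreeAlgebra.lift (ZMod 2) fun i => FreeAlgebra.ι (ZMod 2) (e.symm i)
  let E' : FreeAlgebra (ZMod 2) X →ₐ[ZMod 2] FreeAlgebra (ZMod 2) (Fin n) :=
    FreeAlgebra.lift (ZMod 2) fun x => FreeAlgebra.ι (ZMod 2) (e x)
  have hEE' : E.comp E' = AlgHom.id _ _ := by
    apply FreeAlgebra.hom_ext
    funext x
    simp [E, E']
  have hE'E : E'.comp E = AlgHom.id _ _ := by
    apply FreeAlgebra.hom_ext
    funext x
    simp [E, E']
  have k1 : ∀ x, E (E' x) = x := fun x => by
    have := AlgHom.congr_fun hEE' x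
    simpa using this
  have k2 : ∀ x, E' (E x) = x := fun x => by
    have := AlgHom.congr_fun hE'E x
    simpa using this
  refine ⟨n, f.comp E, rel.image E', ?_, ?_, ?_⟩
  · intro a
    obtain ⟨x, rfl⟩ := hf a
    exact ⟨E' x, by rw [AlgHom.comp_apply, k1]⟩
  · intro ρ hρ
    obtain ⟨σ, hσ, rfl⟩ := Finset.mem_image.1 hρ
    rw [AlgHom.comp_apply, k1]
    exact h0 σ hσ
  · intro y hy
    have h2 := h1 (E y) hy
    have key : ∀ z ∈ idl (rel : Set (FreeAlgebra (ZMod 2) X)),
        E' z ∈ AddSubgroup.closure {z | ∃ a b, ∃ ρ ∈ rel.image E', z = a * ρ * b} := by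
      intro z hz
      induction hz using AddSubgroup.closure_induction with
      | mem x hx =>
        obtain ⟨a, b, ρ, hρ, rfl⟩ := hx
        apply AddSubgroup.subset_closure
        exact ⟨E' a, E' b, E' ρ, Finset.mem_image_of_mem _ hρ, by rw [map_mul, map_mul]⟩
      | zero =>
        rw [map_zero]
        exact AddSubgroup.zero_mem _
      | add x y _ _ hx hy =>
        rw [map_add]
        exact AddSubgroup.add_mem _ hx hy
      | neg x _ hx =>
        rw [map_neg]
        exact AddSubgroup.neg_mem _ hx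
    have h3 := key _ h2
    rwa [k2] at h3

theorem finPres_quot {X : Type} [Finite X] (rel : Finset (FreeAlgebra (ZMod 2) X)) :
    FinPres (RingQuot fun a b : FreeAlgebra (ZMod 2) X => a ∈ rel ∧ b = 0) := by
  refine finPres_of (RingQuot.mkAlgHom (ZMod 2) _) rel (RingQuot.mkAlgHom_surjective (ZMod 2) _)
    ?_ ?_
  · intro ρ hρ
    have h := RingQuot.mkAlgHom_rel (ZMod 2)
      (s := fun a b : FreeAlgebra (ZMod 2) X => a ∈ rel ∧ b = 0) (x := ρ) (y := 0) ⟨hρ, rfl⟩
    rw [h, map_zero]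
  · intro y hy
    exact idl_of_mk (rel : Set (FreeAlgebra (ZMod 2) X)) hy

instance : Finite Ltr :=
  Finite.of_injective (fun x : Ltr => (match x with
    | .z => 0
    | .u => 1
    | .m => 2 : Fin 3)) (by
      intro x y h
      cases x <;> cases y <;> simp_all)

theorem finPres_L : FinPres LAlg := by
  classical
  refine finPres_of (RingQuot.mkAlgHom (ZMod 2) relL) (relList gens).toFinset
    (RingQuot.mkAlgHom_surjective (ZMod 2) _) ?_ ?_
  · intro ρ hρ
    have h := RingQuot.mkAlgHom_rel (ZMod 2) (s := relL) (x := ρ) (y := 0)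
      ⟨List.mem_toFinset.1 hρ, rfl⟩
    rw [h, map_zero]
  · intro y hy
    have e : (((relList gens).toFinset : Finset FA) : Set FA) = {a | a ∈ relList gens} := by
      ext a
      simp
    rw [e]
    exact idl_of_mk {a | a ∈ relList gens} hy

theorem finPres_equiv {A : Type u} {B : Type v} [Ring A] [Ring B] [Algebra (ZMod 2) A]
    [Algebra (ZMod 2) B] (e : A ≃ₐ[ZMod 2] B) (h : FinPres A) : FinPres B := by
  obtain ⟨n, f, rel, h1, h2, h3⟩ := h
  refine ⟨n, (e : A →ₐ[ZMod 2] B).comp f, rel, ?_, ?_, ?_⟩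
  · intro b
    obtain ⟨y, hy⟩ := h1 (e.symm b)
    exact ⟨y, by rw [AlgHom.comp_apply, hy]; simp⟩
  · intro ρ hρ
    rw [AlgHom.comp_apply, h2 ρ hρ, map_zero]
  · intro y hy
    apply h3
    apply e.injective
    rw [map_zero]
    exact hy

/-- descend an algebra homomorphism along a presentation -/
theorem exists_desc {A : Type u} {B : Type v} [Ring A] [Ring B] [Algebra (ZMod 2) A]
    [Algebra (ZMod 2) B] {n : ℕ} (f : FreeAlgebra (ZMod 2) (Fin n) →ₐ[ZMod 2] A)
    (rel : Finset (FreeAlgebra (ZMod 2) (Fin n))) (h1 : Function.Surjective f)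
    (h3 : ∀ y, f y = 0 → y ∈ AddSubgroup.closure {z | ∃ a b, ∃ ρ ∈ rel, z = a * ρ * b})
    (g : FreeAlgebra (ZMod 2) (Fin n) →ₐ[ZMod 2] B) (hg : ∀ ρ ∈ rel, g ρ = 0) :
    ∃ φ : A →ₐ[ZMod 2] B, ∀ x, φ (f x) = g x := by
  have hker : RingHom.ker (f : FreeAlgebra (ZMod 2) (Fin n) →+* A) ≤
      RingHom.ker (g : FreeAlgebra (ZMod 2) (Fin n) →+* B) := by
    intro y hy
    rw [RingHom.mem_ker] at hy ⊢
    have hy1 : f y = 0 := by
      rw [← hy]
      rfl
    have hy2 : y ∈ idl (rel : Set (FreeAlgebra (ZMod 2) (Fin n))) := h3 y hy1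
    have hg1 : ∀ ρ ∈ (rel : Set (FreeAlgebra (ZMod 2) (Fin n))),
        (g : FreeAlgebra (ZMod 2) (Fin n) →+* B) ρ = 0 := by
      intro ρ hρ
      have h := hg ρ (Finset.mem_coe.1 hρ)
      rw [← h]
      rfl
    exact idl_map_zero (g : FreeAlgebra (ZMod 2) (Fin n) →+* B) hg1 hy2
  obtain ⟨ψ, hψ⟩ : ∃ ψ : A →+* B, ∀ x, ψ (f x) = g x :=
    ⟨RingHom.liftOfRightInverse (f : FreeAlgebra (ZMod 2) (Fin n) →+* A) (Function.surjInv h1)
      (Function.rightInverse_surjInv h1) ⟨(g : FreeAlgebra (ZMod 2) (Fin n) →+* B), hker⟩,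
      fun x => RingHom.liftOfRightInverse_comp_apply
        (f : FreeAlgebra (ZMod 2) (Fin n) →+* A) _
        (Function.rightInverse_surjInv h1)
        ⟨(g : FreeAlgebra (ZMod 2) (Fin n) →+* B), hker⟩ x⟩
  have hc : ∀ r : ZMod 2, ψ (algebraMap (ZMod 2) A r) = algebraMap (ZMod 2) B r := by
    intro r
    have h := hψ (algebraMap (ZMod 2) _ r)
    rw [AlgHom.commutes, AlgHom.commutes] at h
    exact h
  exact ⟨{ toRingHom := ψ, commutes' := hc }, hψ⟩

theorem finPres_tensor {A : Type u} {B : Type v} [Ring A] [Ring B] [Algebra (ZMod 2) A]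
    [Algebra (ZMod 2) B] (hA : FinPres A) (hB : FinPres B) : FinPres (A ⊗[ZMod 2] B) := by
  classical
  obtain ⟨n, f, relA, f1, f2, f3⟩ := hA
  obtain ⟨m, g, relB, g1, g2, g3⟩ := hB
  let iA : FreeAlgebra (ZMod 2) (Fin n) →ₐ[ZMod 2] FreeAlgebra (ZMod 2) (Fin n ⊕ Fin m) :=
    FreeAlgebra.lift (ZMod 2) fun i => FreeAlgebra.ι (ZMod 2) (Sum.inl i)
  let iB : FreeAlgebra (ZMod 2) (Fin m) →ₐ[ZMod 2] FreeAlgebra (ZMod 2) (Fin n ⊕ Fin m) :=
    FreeAlgebra.lift (ZMod 2) fun i => FreeAlgebra.ι (ZMod 2) (Sum.inr i)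
  let h : FreeAlgebra (ZMod 2) (Fin n ⊕ Fin m) →ₐ[ZMod 2] A ⊗[ZMod 2] B :=
    FreeAlgebra.lift (ZMod 2) (Sum.elim (fun i => f (FreeAlgebra.ι (ZMod 2) i) ⊗ₜ 1)
      (fun j => 1 ⊗ₜ g (FreeAlgebra.ι (ZMod 2) j)))
  let rel : Finset (FreeAlgebra (ZMod 2) (Fin n ⊕ Fin m)) :=
    relA.image iA ∪ relB.image iB ∪ (Finset.univ : Finset (Fin n × Fin m)).image fun p =>
      FreeAlgebra.ι (ZMod 2) (Sum.inl p.1) * FreeAlgebra.ι (ZMod 2) (Sum.inr p.2) -
      FreeAlgebra.ι (ZMod 2) (Sum.inr p.2) * FreeAlgebra.ι (ZMod 2) (Sum.inl p.1)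
  have hiA : ∀ x, h (iA x) = f x ⊗ₜ 1 := by
    intro x
    have e : h.comp iA = (Algebra.TensorProduct.includeLeft).comp f := by
      apply FreeAlgebra.hom_ext
      funext i
      simp [h, iA]
    have := AlgHom.congr_fun e x
    simpa using this
  have hiB : ∀ x, h (iB x) = 1 ⊗ₜ g x := by
    intro x
    have e : h.comp iB = (Algebra.TensorProduct.includeRight).comp g := by
      apply FreeAlgebra.hom_ext
      funext i
      simp [h, iB]
    have := AlgHom.congr_fun e x
    simpa using this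
  refine finPres_of h rel ?_ ?_ ?_
  · intro x
    induction x using TensorProduct.induction_on with
    | zero => exact ⟨0, map_zero h⟩
    | tmul a b =>
      obtain ⟨a, rfl⟩ := f1 a
      obtain ⟨b, rfl⟩ := g1 b
      exact ⟨iA a * iB b, by
        rw [map_mul, hiA, hiB, Algebra.TensorProduct.tmul_mul_tmul, mul_one, one_mul]⟩
    | add x y hx hy =>
      obtain ⟨x, rfl⟩ := hx
      obtain ⟨y, rfl⟩ := hy
      exact ⟨x + y, map_add h x y⟩
  · intro ρ hρ
    simp only [rel, Finset.mem_union, Finset.mem_image] at hρ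
    rcases hρ with (⟨σ, hσ, rfl⟩ | ⟨σ, hσ, rfl⟩) | ⟨p, -, rfl⟩
    · rw [hiA, f2 σ hσ, TensorProduct.zero_tmul]
    · rw [hiB, g2 σ hσ, TensorProduct.tmul_zero]
    · rw [map_sub, map_mul, map_mul]
      simp [h]
  · intro y hy
    let Q := RingQuot fun a b : FreeAlgebra (ZMod 2) (Fin n ⊕ Fin m) => a ∈ rel ∧ b = 0
    let q : FreeAlgebra (ZMod 2) (Fin n ⊕ Fin m) →ₐ[ZMod 2] Q := RingQuot.mkAlgHom (ZMod 2) _
    have hq : ∀ ρ ∈ rel, q ρ = 0 := by
      intro ρ hρ
      have h := RingQuot.mkAlgHom_rel (ZMod 2)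
        (s := fun a b : FreeAlgebra (ZMod 2) (Fin n ⊕ Fin m) => a ∈ rel ∧ b = 0) (x := ρ)
        (y := 0) ⟨hρ, rfl⟩
      show RingQuot.mkAlgHom (ZMod 2) _ ρ = 0
      rw [h, map_zero]
    obtain ⟨φA, hφA⟩ := exists_desc f relA f1 f3 (q.comp iA) (by
      intro ρ hρ
      rw [AlgHom.comp_apply]
      apply hq
      simp only [rel, Finset.mem_union, Finset.mem_image]
      exact Or.inl (Or.inl ⟨ρ, hρ, rfl⟩))
    obtain ⟨φB, hφB⟩ := exists_desc g relB g1 g3 (q.comp iB) (by
      intro ρ hρ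
      rw [AlgHom.comp_apply]
      apply hq
      simp only [rel, Finset.mem_union, Finset.mem_image]
      exact Or.inl (Or.inr ⟨ρ, hρ, rfl⟩))
    have hgen : ∀ i j, Commute (q (FreeAlgebra.ι (ZMod 2) (Sum.inl i)))
        (q (FreeAlgebra.ι (ZMod 2) (Sum.inr j))) := by
      intro i j
      have h1 := hq (FreeAlgebra.ι (ZMod 2) (Sum.inl i) * FreeAlgebra.ι (ZMod 2) (Sum.inr j) -
        FreeAlgebra.ι (ZMod 2) (Sum.inr j) * FreeAlgebra.ι (ZMod 2) (Sum.inl i)) (by
          simp only [rel, Finset.mem_union, Finset.mem_image]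
          exact Or.inr ⟨(i, j), Finset.mem_univ _, rfl⟩)
      rw [map_sub, map_mul, map_mul, sub_eq_zero] at h1
      exact h1
    have hc1 : ∀ i x, Commute (q (FreeAlgebra.ι (ZMod 2) (Sum.inl i))) (q (iB x)) := by
      intro i x
      induction x using FreeAlgebra.induction with
      | grade0 r =>
        rw [AlgHom.commutes, AlgHom.commutes]
        exact (Algebra.commutes r _).symm
      | grade1 j =>
        have : iB (FreeAlgebra.ι (ZMod 2) j) = FreeAlgebra.ι (ZMod 2) (Sum.inr j) := by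
          simp [iB]
        rw [this]
        exact hgen i j
      | mul a b ha hb =>
        rw [map_mul, map_mul]
        exact ha.mul_right hb
      | add a b ha hb =>
        rw [map_add, map_add]
        exact ha.add_right hb
    have hc2 : ∀ x y, Commute (q (iA x)) (q (iB y)) := by
      intro x y
      induction x using FreeAlgebra.induction with
      | grade0 r =>
        rw [AlgHom.commutes, AlgHom.commutes]
        exact Algebra.commutes r _
      | grade1 i =>
        have : iA (FreeAlgebra.ι (ZMod 2) i) = FreeAlgebra.ι (ZMod 2) (Sum.inl i) := by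
          simp [iA]
        rw [this]
        exact hc1 i y
      | mul a b ha hb =>
        rw [map_mul, map_mul]
        exact ha.mul_left hb
      | add a b ha hb =>
        rw [map_add, map_add]
        exact ha.add_left hb
    let Φ : A ⊗[ZMod 2] B →ₐ[ZMod 2] Q := Algebra.TensorProduct.lift φA φB (by
      intro x y
      obtain ⟨x, rfl⟩ := f1 x
      obtain ⟨y, rfl⟩ := g1 y
      rw [hφA, hφB]
      exact hc2 x y)
    have hΦ : Φ.comp h = q := by
      apply FreeAlgebra.hom_ext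
      funext s
      rcases s with i | j
      · have e : φA (f (FreeAlgebra.ι (ZMod 2) i)) = q (FreeAlgebra.ι (ZMod 2) (Sum.inl i)) := by
          rw [hφA]
          simp [iA]
        simp [h, Φ, e]
      · have e : φB (g (FreeAlgebra.ι (ZMod 2) j)) = q (FreeAlgebra.ι (ZMod 2) (Sum.inr j)) := by
          rw [hφB]
          simp [iB]
        simp [h, Φ, e]
    have hqy : q y = 0 := by
      rw [← hΦ, AlgHom.comp_apply, hy, map_zero]
    exact idl_of_mk (rel : Set (FreeAlgebra (ZMod 2) (Fin n ⊕ Fin m))) hqy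

end P193.L
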