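import Vale.Agent.Lib.P193.L.Phi

/-!
# P193 part L, module NF: normal forms of the plain monomials (L5)

`insert1`: `x^(n+1)` against `S_w`: induction on `w` (generalizing `n`), using `b1`:
`x^(n+1) y^(0) = y^(0) x^(n + ar y)`; if `n + ar y = 0` it has become a letter of level `0`.
`exists_nf_cons`: induction on `ws` generalizing `n`: `n = 0`: put it in front of the first word;
`n + 1`: by `insert1` it is absorbed in the first word or passes as `x^(n'+1) = φ(x^(n'))`, and the
induction hypothesis applies to `l false x n' * nf ws`. `ws = []`: `x^(n) = φ^n(x^(0))`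
`= nf (replicate n [] ++ [[x]])`.
`W_bad`: `u m = 0` (`IsLFam.u_mul_m`). `nf_mul_enc`: if `φ(r) S_g = S_g r` for all `r`, then
`S_{w_0} φ(nf ws) S_g S_g^k = S_{w_0} S_g (nf ws) S_g^k`, induction.
-/

namespace P193.L

universe u
variable {T : Type u} [Ring T]

theorem W_append (l : Bool → Ltr → ℕ → T) (a b : List Ltr) : W l (a ++ b) = W l a * W l b := by
  simp [W]

theorem W_flatten (l : Bool → Ltr → ℕ → T) (a : List (List Ltr)) :
    W l a.flatten = (a.map (W l)).prod := by
  induction a with
  | nil => simp [W]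
  | cons w ws ih => rw [List.flatten_cons, W_append, ih, List.map_cons, List.prod_cons]

theorem W_nil (l : Bool → Ltr → ℕ → T) : W l [] = 1 := by simp [W]

theorem W_cons (l : Bool → Ltr → ℕ → T) (x : Ltr) (w : List Ltr) :
    W l (x :: w) = l false x 0 * W l w := by simp [W]

theorem insert1 {l : Bool → Ltr → ℕ → T} (h : IsLFam l) (x : Ltr) (w : List Ltr) (n : ℕ) :
    (∃ w', l false x (n + 1) * W l w = W l w') ∨
    ∃ n', l false x (n + 1) * W l w = W l w * l false x (n' + 1) := by
  induction w generalizing n with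
  | nil =>
    right
    exact ⟨n, by rw [W_nil, mul_one, one_mul]⟩
  | cons y w ih =>
    have h1 := h.b1 (n + 1) 0 false x y (Nat.succ_pos n)
    have h2 : n + 1 + y.ar - 1 = n + y.ar := by omega
    rw [h2] at h1
    rcases Nat.eq_zero_or_pos (n + y.ar) with h3 | h3
    · left
      refine ⟨y :: x :: w, ?_⟩
      rw [h3] at h1
      rw [W_cons, W_cons, W_cons, ← mul_assoc, h1, mul_assoc]
    · obtain ⟨k, hk⟩ : ∃ k, n + y.ar = k + 1 := ⟨n + y.ar - 1, by omega⟩
      rw [hk] at h1
      rcases ih k with ⟨w', hw'⟩ | ⟨n', hn'⟩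
      · left
        refine ⟨y :: w', ?_⟩
        rw [W_cons, W_cons, ← mul_assoc, h1, mul_assoc, hw']
      · right
        refine ⟨n', ?_⟩
        rw [W_cons, ← mul_assoc, h1, mul_assoc, hn', ← mul_assoc]

theorem nf_replicate_append (S : Sys T) (n : ℕ) (ws : List (List Ltr)) :
    nf S (List.replicate n [] ++ ws) = (fun t => S.φ t)^[n] (nf S ws) := by
  induction n with
  | zero => simp
  | succ n ih =>
    rw [List.replicate_succ, List.cons_append, nf, ih, W_nil, one_mul,
      Function.iterate_succ_apply']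

theorem phi_iter (S : Sys T) (x : Ltr) (n : ℕ) :
    (fun t => S.φ t)^[n] (S.l false x 0) = S.l false x n := by
  induction n with
  | zero => rfl
  | succ n ih => rw [Function.iterate_succ_apply', ih, S.φl]

theorem exists_nf_cons (S : Sys T) (x : Ltr) (n : ℕ) (ws : List (List Ltr)) :
    ∃ ws', S.l false x n * nf S ws = nf S ws' := by
  induction ws generalizing n with
  | nil =>
    refine ⟨List.replicate n [] ++ [[x]], ?_⟩
    rw [nf_replicate_append]
    have h1 : nf S [[x]] = S.l false x 0 := by
      rw [nf, nf, map_one, mul_one, W_cons, W_nil, mul_one]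
    rw [h1, phi_iter, nf, mul_one]
  | cons w ws ih =>
    cases n with
    | zero =>
      refine ⟨(x :: w) :: ws, ?_⟩
      rw [nf, nf, W_cons, mul_assoc]
    | succ n =>
      rcases insert1 S.fam x w n with ⟨w', hw'⟩ | ⟨n', hn'⟩
      · refine ⟨w' :: ws, ?_⟩
        rw [nf, nf, ← mul_assoc, hw']
      · obtain ⟨ws', hws'⟩ := ih n'
        refine ⟨w :: ws', ?_⟩
        rw [nf, nf, ← hws', map_mul, S.φl, ← mul_assoc, hn', mul_assoc]

theorem exists_nf (S : Sys T) (α : MW) : ∃ ws, mon S.l α = nf S ws := by
  induction α with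
  | nil => exact ⟨[], by simp [mon, nf]⟩
  | cons a α ih =>
    obtain ⟨ws, hws⟩ := ih
    obtain ⟨ws', hws'⟩ := exists_nf_cons S a.1 a.2 ws
    refine ⟨ws', ?_⟩
    rw [← hws', ← hws]
    simp [mon]

theorem nf_pad (S : Sys T) (ws : List (List Ltr)) (k : ℕ) :
    nf S (ws ++ List.replicate k []) = nf S ws := by
  induction ws with
  | nil =>
    induction k with
    | zero => rfl
    | succ k ih =>
      rw [List.nil_append] at ih ⊢
      have h1 : nf S ([] :: List.replicate k []) = W S.l [] * S.φ (nf S (List.replicate k [])) := rfl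
      have h2 : nf S [] = 1 := rfl
      rw [List.replicate_succ, h1, ih, h2, map_one, W_nil, one_mul]
  | cons w ws ih => rw [List.cons_append, nf, nf, ih]

theorem W_bad {l : Bool → Ltr → ℕ → T} (h : IsLFam l) {w : List Ltr} (hw : ¬ Good w) :
    W l w = 0 := by
  unfold Good at hw
  rw [not_not] at hw
  obtain ⟨s, t, rfl⟩ := hw
  rw [W_append, W_append, W_cons, W_cons, W_nil, mul_one, h.u_mul_m, mul_zero, zero_mul]

theorem nf_bad (S : Sys T) {ws : List (List Ltr)} (h : ∃ w ∈ ws, ¬ Good w) : nf S ws = 0 := by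
  induction ws with
  | nil =>
    obtain ⟨w, hw, _⟩ := h
    simp at hw
  | cons v ws ih =>
    obtain ⟨w, hw, hg⟩ := h
    rw [nf]
    rcases List.mem_cons.1 hw with h1 | h1
    · rw [h1] at hg
      rw [W_bad S.fam hg, zero_mul]
    · rw [ih ⟨w, h1, hg⟩, map_zero, mul_zero]

theorem phi_hh (S : Sys T) (L : ℕ) (r : T) : S.φ r * W S.l (hh L) = W S.l (hh L) * r := by
  induction L with
  | zero =>
    simp only [hh, List.replicate_zero, List.nil_append]
    rw [W_cons, W_nil, mul_one, S.phi_z]
  | succ L ih =>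
    have h1 : hh (L + 1) = Ltr.u :: hh L := by
      simp [hh, List.replicate_succ]
    rw [h1, W_cons, ← mul_assoc, S.phi_u, mul_assoc, ih, mul_assoc]

theorem nf_mul_enc (S : Sys T) (L : ℕ) (ws : List (List Ltr)) :
    nf S ws * W S.l (List.replicate ws.length (hh L)).flatten = W S.l (enc (hh L) ws) := by
  induction ws with
  | nil => simp [nf, enc, W]
  | cons w ws ih =>
    rw [List.length_cons, List.replicate_succ, List.flatten_cons, W_append, nf]
    have h1 : enc (hh L) (w :: ws) = (w ++ hh L) ++ enc (hh L) ws := by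
      simp [enc]
    rw [h1, W_append, W_append, ← ih]
    have h2 := phi_hh S L (nf S ws)
    calc W S.l w * S.φ (nf S ws) * (W S.l (hh L) * W S.l (List.replicate ws.length (hh L)).flatten)
        = W S.l w * (S.φ (nf S ws) * W S.l (hh L))
          * W S.l (List.replicate ws.length (hh L)).flatten := by simp only [mul_assoc]
      _ = _ := by rw [h2]; simp only [mul_assoc]

end P193.L
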