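import Vale.Agent.Lib.P193.L.Defs

/-!
# P193 part L, module Words: combinatorics of words (L7)

`hh L = U^L 0`. Tool: if `u ++ hh L ++ r = hh L ++ r'` (or the other way round) with `u.length < L`
then `u = []`: the letters of `u` are `U`, and the letter at position `L` is `0` on the right and `U`
on the left if `u ≠ []`. `enc_inj`: induction on the lists; compare the first words with
`List.append_eq_append_iff`. `prefix_eq`: `v ++ hh L <+: v' ++ hh L` gives `v ++ hh L ++ t = v' ++ hh L`; compare
the lengths: `v' = v ++ u`, then `u = []` by the tool.
`Good` (no factor `Um`): `List.infix_iff...`; `hh L` contains no `m`, a factor `Um` of `a ++ b` is in `a`, in `b`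
or `a` ends with `U` and `b` begins with `m`.
-/

namespace P193.L

theorem hh_tool {L : ℕ} {u r r' : List Ltr} (h : u.length < L)
    (e : u ++ (hh L ++ r) = hh L ++ r') : u = [] := by
  by_contra hne
  have hpos : 0 < u.length := List.length_pos_iff.mpr hne
  have e2 : (u ++ (hh L ++ r))[L]? = (hh L ++ r')[L]? := by rw [e]
  rw [List.getElem?_append_right h.le] at e2
  have hl : (hh L ++ r)[L - u.length]? = some Ltr.u := by
    unfold hh
    rw [List.append_assoc, List.getElem?_append_left (by simpa using (by omega : L - u.length < L)),
      List.getElem?_replicate_of_lt (by omega)]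
  have hr : (hh L ++ r')[L]? = some Ltr.z := by
    unfold hh
    rw [List.append_assoc, List.getElem?_append_right (by simp)]
    simp
  rw [hl, hr] at e2
  exact absurd (Option.some.inj e2) (by decide)

theorem enc_cons (g : List Ltr) (w : List Ltr) (ws : List (List Ltr)) :
    enc g (w :: ws) = w ++ (g ++ enc g ws) := by
  simp [enc]

theorem enc_inj {L : ℕ} {ws ws' : List (List Ltr)} (h : ws.length = ws'.length)
    (h1 : ∀ w ∈ ws, w.length < L) (h2 : ∀ w ∈ ws', w.length < L)
    (e : enc (hh L) ws = enc (hh L) ws') : ws = ws' := by
  induction ws generalizing ws' with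
  | nil =>
    cases ws' with
    | nil => rfl
    | cons w' ws' => simp at h
  | cons w ws ih =>
    cases ws' with
    | nil => simp at h
    | cons w' ws' =>
      rw [enc_cons, enc_cons] at e
      have key : w = w' := by
        rcases List.append_eq_append_iff.mp e with ⟨u, hu, hu2⟩ | ⟨u, hu, hu2⟩
        · have hlen : u.length < L := by
            have := h2 w' (by simp)
            rw [hu, List.length_append] at this
            omega
          have := hh_tool hlen hu2.symm
          rw [hu, this, List.append_nil]
        · have hlen : u.length < L := by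
            have := h1 w (by simp)
            rw [hu, List.length_append] at this
            omega
          have := hh_tool hlen hu2.symm
          rw [hu, this, List.append_nil]
      subst key
      have e2 : enc (hh L) ws = enc (hh L) ws' :=
        List.append_cancel_left (List.append_cancel_left e)
      rw [ih (by simpa using h) (fun w hw => h1 w (by simp [hw])) (fun w hw => h2 w (by simp [hw]))
        e2]

theorem prefix_eq {L : ℕ} {v v' : List Ltr} (h1 : v.length < L) (h2 : v'.length < L)
    (h : v ++ hh L <+: v' ++ hh L) : v = v' := by
  obtain ⟨t, ht⟩ := h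
  rw [List.append_assoc] at ht
  rcases List.append_eq_append_iff.mp ht with ⟨u, hu, hu2⟩ | ⟨u, hu, hu2⟩
  · have hlen : u.length < L := by
      rw [hu, List.length_append] at h2
      omega
    have := hh_tool (r := []) (r' := t) hlen (by rw [List.append_nil]; exact hu2.symm)
    rw [hu, this, List.append_nil]
  · have hlen := congrArg List.length hu2
    simp only [List.length_append] at hlen
    have : u = [] := List.length_eq_zero_iff.mp (by omega)
    rw [hu, this, List.append_nil]

/-- `Good` as a chain condition -/
theorem good_iff_chain (w : List Ltr) :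
    Good w ↔ List.IsChain (fun a b => ¬ (a = Ltr.u ∧ b = Ltr.m)) w := by
  rw [List.isChain_iff_forall_rel_of_append_cons_cons]
  constructor
  · rintro h a b l₁ l₂ rfl ⟨rfl, rfl⟩
    exact h ⟨l₁, l₂, by simp⟩
  · rintro h ⟨l₁, l₂, e⟩
    exact h (a := Ltr.u) (b := Ltr.m) (l₁ := l₁) (l₂ := l₂) (by rw [← e]; simp) ⟨rfl, rfl⟩

theorem good_nil : Good [] := by
  rw [good_iff_chain]
  exact List.IsChain.nil

theorem good_append {v w : List Ltr} (hv : Good v) (hw : Good w)
    (h : ¬ (v.getLast? = some Ltr.u ∧ w.head? = some Ltr.m)) : Good (v ++ w) := by
  rw [good_iff_chain] at *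
  rw [List.isChain_append]
  refine ⟨hv, hw, ?_⟩
  rintro x hx y hy ⟨rfl, rfl⟩
  exact h ⟨hx, hy⟩

theorem good_replicate (k : ℕ) : Good (List.replicate k Ltr.u) := by
  rw [good_iff_chain, List.isChain_iff_forall_rel_of_append_cons_cons]
  rintro a b l₁ l₂ e ⟨rfl, rfl⟩
  have : Ltr.m ∈ List.replicate k Ltr.u := by
    rw [e]; simp
  exact absurd (List.eq_of_mem_replicate this) (by decide)

theorem good_hh (k : ℕ) : Good (hh k) := by
  unfold hh
  refine good_append (good_replicate k) ?_ (by rintro ⟨_, h⟩; simp at h)
  rw [good_iff_chain]
  exact List.IsChain.singleton _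

theorem head_hh (k : ℕ) : (hh k).head? ≠ some Ltr.m := by
  unfold hh
  cases k with
  | zero => simp
  | succ k => simp [List.replicate_succ]

theorem last_append_hh (v : List Ltr) (k : ℕ) : (v ++ hh k).getLast? = some Ltr.z := by
  unfold hh
  rw [← List.append_assoc]
  simp

theorem good_append_hh {L : ℕ} {v : List Ltr} (h : Good v) : Good (v ++ hh L) :=
  good_append h (good_hh L) fun h2 => head_hh L h2.2

theorem good_enc {L : ℕ} {ws : List (List Ltr)} (h : ∀ w ∈ ws, Good w) :
    Good (enc (hh L) ws) := by
  induction ws with
  | nil => exact good_nil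
  | cons w ws ih =>
    rw [enc_cons, ← List.append_assoc]
    refine good_append (good_append_hh (h w (by simp))) (ih fun w hw => h w (by simp [hw])) ?_
    rw [last_append_hh]
    rintro ⟨h, _⟩
    simp at h

theorem Good.tail {x : Ltr} {v : List Ltr} (h : Good (x :: v)) : Good v :=
  fun h2 => h (h2.trans (List.suffix_cons x v).isInfix)

theorem last_word (y : Item) : y.word.getLast? = some Ltr.z := by
  induction y with
  | num k => exact last_append_hh [] k
  | pair a b iha ihb =>
    simp only [Item.word]
    rw [← List.cons_append, List.getLast?_append, ihb]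
    rfl

theorem good_word (y : Item) : Good y.word := by
  induction y with
  | num k => exact good_hh k
  | pair a b iha ihb =>
    simp only [Item.word]
    have h1 : Good (a.word ++ b.word) := good_append iha ihb (by
      rw [last_word]
      rintro ⟨h, _⟩
      simp at h)
    have h2 : Good ([Ltr.m] ++ (a.word ++ b.word)) := good_append (by
      rw [good_iff_chain]
      exact List.IsChain.singleton _) h1 (by
        rintro ⟨h, _⟩
        simp at h)
    exact h2

theorem good_seqW (r : List Item) : Good (seqW r) := by
  induction r with
  | nil => exact good_nil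
  | cons y r ih =>
    have : seqW (y :: r) = y.word ++ seqW r := by simp [seqW]
    rw [this]
    refine good_append (good_word y) ih ?_
    rw [last_word]
    rintro ⟨h, _⟩
    simp at h

end P193.L
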