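import Vale.Agent.Lib.P193.L.Phi
import Vale.Agent.Lib.P193.L.Words

/-!
# P193 part L, module StarW: `S_v* S_v'` (L7)

`Ws_mul_W_append`: `S_c* S_{cd} = S_d` if `c d` is good and `d ≠ []`: induction on `c = x c'`:
`S_{c'}* (x* x) S_{c'd}`; `x* x = 1` or, for `x = u`, `1 - m m*`, and `m* S_{c'd} = 0` since `c' d` is not
empty and does not begin with `m` (good). `orth`: prefix-incomparable good words: remove the
common prefix `c`: `v = c x a`, `v' = c y b`, `x ≠ y`: `S_v* S_v' = S_a* x* (S_c* S_{c y b}) = S_a* x* y S_b = 0`.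
`Ws_mul_W`: if `v = v'`: `S_v* S_v = 1` since `v h` ends with `0` (`z* z = 1`). Otherwise by `prefix_eq` the words are
prefix-incomparable.
-/

namespace P193.L

universe u
variable {T : Type u} [Ring T]

theorem Ws_cons (l : Bool → Ltr → ℕ → T) (x : Ltr) (w : List Ltr) :
    Ws l (x :: w) = Ws l w * l true x 0 := by
  simp [Ws]

theorem W_cons (l : Bool → Ltr → ℕ → T) (x : Ltr) (w : List Ltr) :
    W l (x :: w) = l false x 0 * W l w := by
  simp [W]

theorem Ws_append (l : Bool → Ltr → ℕ → T) (c d : List Ltr) :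
    Ws l (c ++ d) = Ws l d * Ws l c := by
  simp [Ws]

theorem starW_ms_mul_W {l : Bool → Ltr → ℕ → T} (h : IsLFam l) {w : List Ltr} (hw : w ≠ [])
    (hg : Good (.u :: w)) : l true .m 0 * W l w = 0 := by
  cases w with
  | nil => exact absurd rfl hw
  | cons y w =>
    rw [W_cons, ← mul_assoc]
    cases y with
    | z => rw [h.mz, zero_mul]
    | u => rw [h.mu, zero_mul]
    | m => exact absurd ⟨[], w, rfl⟩ hg

theorem Ws_mul_W_append {l : Bool → Ltr → ℕ → T} (h : IsLFam l) {c d : List Ltr} (hd : d ≠ [])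
    (hg : Good (c ++ d)) : Ws l c * W l (c ++ d) = W l d := by
  induction c with
  | nil => simp [Ws]
  | cons x c ih =>
    have ih' := ih (Good.tail hg)
    have e : Ws l (x :: c) * W l (x :: c ++ d) =
        Ws l c * (l true x 0 * l false x 0) * W l (c ++ d) := by
      rw [Ws_cons, List.cons_append, W_cons]
      simp only [mul_assoc]
    rw [e]
    cases x with
    | z => rw [h.zz, mul_one, ih']
    | m => rw [h.mm, mul_one, ih']
    | u =>
      have h1 : l true .u 0 * l false .u 0 = 1 - l false .m 0 * l true .m 0 := by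
        rw [h.uu, ← h.part 0]
        abel
      have h2 : l true .m 0 * W l (c ++ d) = 0 :=
        starW_ms_mul_W h (by simp [hd]) hg
      rw [h1, mul_sub, mul_one, sub_mul, ih', mul_assoc (Ws l c), mul_assoc (l false .m 0), h2,
        mul_zero, mul_zero, sub_zero]

theorem starW_xs_mul_y {l : Bool → Ltr → ℕ → T} (h : IsLFam l) {x y : Ltr} (hxy : x ≠ y) :
    l true x 0 * l false y 0 = 0 := by
  cases x <;> cases y
  · exact absurd rfl hxy
  · exact h.zu 0
  · exact h.zm 0
  · exact h.uz 0
  · exact absurd rfl hxy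
  · exact h.um 0
  · exact h.mz 0
  · exact h.mu 0
  · exact absurd rfl hxy

theorem starW_split {a b : List Ltr} (h1 : ¬ a <+: b) (h2 : ¬ b <+: a) :
    ∃ (c a' b' : List Ltr) (x y : Ltr), x ≠ y ∧ a = c ++ x :: a' ∧ b = c ++ y :: b' := by
  induction a generalizing b with
  | nil => exact absurd (List.nil_prefix) h1
  | cons x a ih =>
    cases b with
    | nil => exact absurd (List.nil_prefix) h2
    | cons y b =>
      by_cases hxy : x = y
      · subst hxy
        have h1' : ¬ a <+: b := fun h => h1 ((List.prefix_cons_inj x).2 h)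
        have h2' : ¬ b <+: a := fun h => h2 ((List.prefix_cons_inj x).2 h)
        obtain ⟨c, a', b', x', y', hne, ha, hb⟩ := ih h1' h2'
        exact ⟨x :: c, a', b', x', y', hne, by rw [ha]; rfl, by rw [hb]; rfl⟩
      · exact ⟨[], a, b, x, y, hxy, rfl, rfl⟩

theorem Ws_mul_W_orth {l : Bool → Ltr → ℕ → T} (h : IsLFam l) {a b : List Ltr} (ha : Good a)
    (hb : Good b) (h1 : ¬ a <+: b) (h2 : ¬ b <+: a) : Ws l a * W l b = 0 := by
  obtain ⟨c, a', b', x, y, hne, rfl, rfl⟩ := starW_split h1 h2
  rw [Ws_append, mul_assoc, Ws_mul_W_append h (by simp) hb, Ws_cons, W_cons, mul_assoc,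
    ← mul_assoc (l true x 0), starW_xs_mul_y h hne, zero_mul, mul_zero]

theorem Ws_mul_W {l : Bool → Ltr → ℕ → T} (h : IsLFam l) {L : ℕ} {v v' : List Ltr}
    (h1 : v.length < L) (h2 : v'.length < L) (g1 : Good v) (g2 : Good v') :
    Ws l (v ++ hh L) * W l (v' ++ hh L) = if v = v' then 1 else 0 := by
  split_ifs with e
  · subst e
    have e1 : v ++ hh L = (v ++ List.replicate L Ltr.u) ++ [Ltr.z] := by
      simp [hh]
    have hg : Good ((v ++ List.replicate L Ltr.u) ++ [Ltr.z]) := by
      rw [← e1]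
      exact good_append_hh g1
    rw [e1, Ws_append, mul_assoc, Ws_mul_W_append h (by simp) hg]
    simp [Ws, W, h.zz]
  · exact Ws_mul_W_orth h (good_append_hh g1) (good_append_hh g2)
      (fun hp => e (prefix_eq h1 h2 hp)) (fun hp => e (prefix_eq h2 h1 hp).symm)

end P193.L
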