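import Vale.Agent.Lib.P193.L.Elim
import Vale.Agent.Lib.P193.L.NF
import Vale.Agent.Lib.P193.L.StarW

/-!
# P193 part L, module Pure: (P) relative to `D` (L7)

`r ≠ 0`: by `star_elim` `r γ = Σ d mon α ≠ 0`, by `exists_nf` `= Σ d nf ws`; drop the terms with a bad word
(`nf_bad`), pad all the `ws` to the same length `N` (`nf_pad`) and collect equal `ws`:
`r γ = Σ_{ws ∈ F} d_ws nf ws` with a `Finset F` of lists of length `N` with good words and `d_ws ∈ D`. As
`r γ ≠ 0` some `d_{ws₀} ≠ 0`. Take `L` larger than all lengths of the words in the `ws ∈ F`, multiply by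
`W (replicate N (hh L)).flatten`: `Σ d_ws S_{v(ws)}`, `v(ws) = enc (hh L) ws`, pairwise distinct (`enc_inj`), good
(`good_enc`). Take `L'` larger than all lengths of the `v(ws)`; then
`S_{v(ws₀) hh L'}* (Σ d_ws S_{v(ws)}) S_{hh L'} = d_{ws₀}` (`Ws_mul_W`, `D` commutes with the letters).
-/

namespace P193.L

universe u
variable {T : Type u} [Ring T]

/-- elements of `D` commute with products of star letters -/
theorem Sys.comm_Ws (S : Sys T) {d : T} (hd : d ∈ S.D) (w : List Ltr) : Commute d (Ws S.l w) := by
  unfold Ws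
  apply Commute.list_prod_right
  intro t ht
  obtain ⟨x, -, rfl⟩ := List.mem_map.1 ht
  exact S.comm d hd true x 0

/-- collecting a list of terms `d * nf ws` into a finitely supported function; bad terms dropped -/
theorem Sys.collect (S : Sys T) (N : ℕ) (L : List (T × List (List Ltr)))
    (hD : ∀ a ∈ L, a.1 ∈ S.D) (hN : ∀ a ∈ L, a.2.length = N) :
    ∃ c : List (List Ltr) →₀ T, (∀ ws, c ws ∈ S.D) ∧ (∀ ws ∈ c.support, ws.length = N) ∧
      (∀ ws ∈ c.support, ∀ w ∈ ws, Good w) ∧
      (L.map fun a => a.1 * nf S a.2).sum = c.sum fun ws d => d * nf S ws := by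
  classical
  induction L with
  | nil =>
    refine ⟨0, fun ws => ?_, ?_, ?_, ?_⟩
    · simp
    · intro ws h
      simp at h
    · intro ws h
      simp at h
    · simp
  | cons a L ih =>
    obtain ⟨c, h1, h2, h3, h4⟩ := ih (fun b hb => hD b (List.mem_cons_of_mem _ hb))
      (fun b hb => hN b (List.mem_cons_of_mem _ hb))
    by_cases hg : ∀ w ∈ a.2, Good w
    · refine ⟨Finsupp.single a.2 a.1 + c, fun ws => ?_, fun ws hws => ?_, fun ws hws => ?_, ?_⟩
      · rw [Finsupp.add_apply]
        refine S.D.add_mem ?_ (h1 ws)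
        by_cases h : a.2 = ws
        · rw [h, Finsupp.single_eq_same]
          exact hD a List.mem_cons_self
        · rw [Finsupp.single_apply, if_neg h]
          exact S.D.zero_mem
      · rcases Finset.mem_union.1 (Finsupp.support_add hws) with h | h
        · have : ws = a.2 := by
            have := Finsupp.support_single_subset h
            simpa using this
          rw [this]
          exact hN a List.mem_cons_self
        · exact h2 ws h
      · rcases Finset.mem_union.1 (Finsupp.support_add hws) with h | h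
        · have : ws = a.2 := by
            have := Finsupp.support_single_subset h
            simpa using this
          rw [this]
          exact hg
        · exact h3 ws h
      · rw [List.map_cons, List.sum_cons, h4, Finsupp.sum_add_index', Finsupp.sum_single_index]
        · rw [zero_mul]
        · intro ws
          rw [zero_mul]
        · intro ws x y
          rw [add_mul]
    · refine ⟨c, h1, h2, h3, ?_⟩
      have hb : nf S a.2 = 0 := nf_bad S (by
        by_contra hcon
        apply hg
        intro w hw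
        by_contra hw'
        exact hcon ⟨w, hw, hw'⟩)
      rw [List.map_cons, List.sum_cons, hb, mul_zero, zero_add, h4]

/-- a bound for the lengths of the words in the support -/
theorem exists_len_bound (F : Finset (List (List Ltr))) :
    ∃ L : ℕ, ∀ ws ∈ F, ∀ w ∈ ws, w.length < L := by
  refine ⟨(F.sup fun ws => (ws.map List.length).sum) + 1, fun ws hws w hw => ?_⟩
  have h1 : w.length ≤ (ws.map List.length).sum :=
    List.le_sum_of_mem (List.mem_map.2 ⟨w, hw, rfl⟩)
  have h2 : (ws.map List.length).sum ≤ F.sup fun ws => (ws.map List.length).sum :=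
    Finset.le_sup (f := fun ws : List (List Ltr) => (ws.map List.length).sum) hws
  omega

theorem Sys.pureD (S : Sys T) {r : T} (hr : r ≠ 0) :
    ∃ x y : T, x * r * y ∈ S.D ∧ x * r * y ≠ 0 := by
  classical
  obtain ⟨γ, hγ, A, hA, hsum⟩ := S.star_elim hr
  choose f hf using exists_nf S
  -- a common length
  obtain ⟨N, hN⟩ : ∃ N : ℕ, ∀ a ∈ A, (f a.2).length ≤ N := by
    refine ⟨(A.map fun a => (f a.2).length).sum, fun a ha => ?_⟩
    exact List.le_sum_of_mem (List.mem_map.2 ⟨a, ha, rfl⟩)
  -- the padded list
  obtain ⟨c, hc1, hc2, hc3, hc4⟩ := S.collect N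
    (A.map fun a => (a.1, f a.2 ++ List.replicate (N - (f a.2).length) [])) (by
      intro b hb
      obtain ⟨a, ha, rfl⟩ := List.mem_map.1 hb
      exact hA a ha) (by
      intro b hb
      obtain ⟨a, ha, rfl⟩ := List.mem_map.1 hb
      have := hN a ha
      simp only [List.length_append, List.length_replicate]
      omega)
  have hsum2 : r * γ = c.sum fun ws d => d * nf S ws := by
    rw [hsum, ← hc4, List.map_map]
    congr 1
    apply List.map_congr_left
    intro a _
    simp only [Function.comp_apply]
    rw [nf_pad, hf]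
  have hc : c ≠ 0 := by
    intro h0
    apply hγ
    rw [hsum2, h0, Finsupp.sum_zero_index]
  obtain ⟨ws₀, hws₀⟩ : ∃ ws, c ws ≠ 0 := by
    by_contra hcon
    apply hc
    ext ws
    by_contra h
    exact hcon ⟨ws, h⟩
  have hmem₀ : ws₀ ∈ c.support := Finsupp.mem_support_iff.2 hws₀
  obtain ⟨L, hL⟩ := exists_len_bound c.support
  -- the bound for the encoded words
  obtain ⟨L', hL'⟩ : ∃ L' : ℕ, ∀ ws ∈ c.support, (enc (hh L) ws).length < L' := by
    refine ⟨(c.support.sup fun ws => (enc (hh L) ws).length) + 1, fun ws hws => ?_⟩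
    have h2 : (enc (hh L) ws).length ≤ c.support.sup fun ws => (enc (hh L) ws).length :=
      Finset.le_sup (f := fun ws : List (List Ltr) => (enc (hh L) ws).length) hws
    omega
  have key : Ws S.l (enc (hh L) ws₀ ++ hh L') * r *
      (γ * (W S.l (List.replicate N (hh L)).flatten * W S.l (hh L'))) = c ws₀ := by
    have e1 : Ws S.l (enc (hh L) ws₀ ++ hh L') * r *
        (γ * (W S.l (List.replicate N (hh L)).flatten * W S.l (hh L'))) =
        Ws S.l (enc (hh L) ws₀ ++ hh L') *
          ((r * γ) * (W S.l (List.replicate N (hh L)).flatten * W S.l (hh L'))) := by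
      simp only [mul_assoc]
    rw [e1, hsum2, Finsupp.sum, Finset.sum_mul, Finset.mul_sum]
    rw [Finset.sum_eq_single_of_mem ws₀ hmem₀]
    · have h5 : nf S ws₀ * (W S.l (List.replicate N (hh L)).flatten * W S.l (hh L')) =
          W S.l (enc (hh L) ws₀ ++ hh L') := by
        rw [← mul_assoc, W_append, ← nf_mul_enc S L ws₀, hc2 ws₀ hmem₀]
      rw [mul_assoc, h5, ← mul_assoc, ← (S.comm_Ws (hc1 ws₀) _).eq, mul_assoc,
        Ws_mul_W S.fam (hL' ws₀ hmem₀) (hL' ws₀ hmem₀) (good_enc (hc3 ws₀ hmem₀))
          (good_enc (hc3 ws₀ hmem₀)), if_pos rfl, mul_one]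
    · intro ws hws hne
      have h5 : nf S ws * (W S.l (List.replicate N (hh L)).flatten * W S.l (hh L')) =
          W S.l (enc (hh L) ws ++ hh L') := by
        rw [← mul_assoc, W_append, ← nf_mul_enc S L ws, hc2 ws hws]
      have hv : enc (hh L) ws₀ ≠ enc (hh L) ws := by
        intro h
        apply hne
        exact (enc_inj ((hc2 ws₀ hmem₀).trans (hc2 ws hws).symm) (hL ws₀ hmem₀) (hL ws hws) h).symm
      rw [mul_assoc, h5, ← mul_assoc, ← (S.comm_Ws (hc1 ws) _).eq, mul_assoc,
        Ws_mul_W S.fam (hL' ws₀ hmem₀) (hL' ws hws) (good_enc (hc3 ws₀ hmem₀))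
          (good_enc (hc3 ws hws)), if_neg hv, mul_zero]
  exact ⟨_, _, by rw [key]; exact hc1 ws₀, by rw [key]; exact hws₀⟩

end P193.L
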