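import Vale.Agent.Lib.P193.L.Seq

/-!
# P193 part L, module Scal: (SCAL) relative to `D` (L8)

`r = N` items `num 0`, `N ≥` all the `K` of `elt_seq` for `f ∈ F`: `f S_r = Σ S_{r_i} d_i`. `L'` larger than all
the lengths of `seqW r_i` and `seqW r`. `q = S_{r hh L'}`, `q* = S_{r hh L'}*`:
`q* f q = Σ S_{r hh L'}* S_{r_i hh L'} d_i ∈ D` by `Ws_mul_W` (`d_i` commutes with `S_{hh L'}`), `good_seqW`.
-/

namespace P193.L

universe u
variable {T : Type u} [Ring T]

private theorem scal_comm (S : Sys T) {d : T} (hd : d ∈ S.D) (w : List Ltr) :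
    d * W S.l w = W S.l w * d := by
  induction w with
  | nil => simp [W]
  | cons x w ih =>
    have e : W S.l (x :: w) = S.l false x 0 * W S.l w := by simp [W]
    rw [e, ← mul_assoc, (S.comm d hd false x 0).eq, mul_assoc, ih, mul_assoc]

private theorem scal_sum (S : Sys T) (v : List Ltr) (M : ℕ) (hv : v.length < M) (gv : Good v)
    (L : List (List Item × T)) (hL : ∀ a ∈ L, a.2 ∈ S.D)
    (hlen : ∀ a ∈ L, (seqW a.1).length < M) :
    Ws S.l (v ++ hh M) * ((L.map fun a => W S.l (seqW a.1) * a.2).sum * W S.l (hh M)) ∈ S.D := by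
  induction L with
  | nil => simp [S.D.zero_mem]
  | cons a L ih =>
    have ih' := ih (fun b hb => hL b (List.mem_cons_of_mem _ hb))
      (fun b hb => hlen b (List.mem_cons_of_mem _ hb))
    rw [List.map_cons, List.sum_cons, add_mul, mul_add]
    refine S.D.add_mem ?_ ih'
    have hd := hL a List.mem_cons_self
    rw [mul_assoc, scal_comm S hd, ← mul_assoc (W S.l (seqW a.1)), ← W_append, ← mul_assoc,
      Ws_mul_W S.fam hv (hlen a List.mem_cons_self) gv (good_seqW a.1)]
    split_ifs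
    · rw [one_mul]
      exact hd
    · rw [zero_mul]
      exact S.D.zero_mem

theorem Sys.scalD (S : Sys T) (F : Finset T) :
    ∃ q : Isom T, ∀ f ∈ F, q.st * f * q.val ∈ S.D := by
  choose K hK using elt_seq S
  have hr : ∀ f ∈ F, K f ≤ (List.replicate (F.sup K) (Item.num 0)).length := by
    intro f hf
    rw [List.length_replicate]
    exact Finset.le_sup hf
  obtain ⟨r, hrdef⟩ : ∃ r, r = List.replicate (F.sup K) (Item.num 0) := ⟨_, rfl⟩
  rw [← hrdef] at hr
  have hex : ∀ f : T, ∃ L : List (List Item × T), f ∈ F → ((∀ a ∈ L, a.2 ∈ S.D) ∧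
      f * W S.l (seqW r) = (L.map fun a => W S.l (seqW a.1) * a.2).sum) := by
    intro f
    by_cases hf : f ∈ F
    · obtain ⟨L, h1, h2⟩ := hK f r (hr f hf)
      exact ⟨L, fun _ => ⟨fun a ha => (h1 a ha).1, h2⟩⟩
    · exact ⟨[], fun h => absurd h hf⟩
  choose Lf hLf using hex
  obtain ⟨M, hM⟩ : ∃ M : ℕ, M = F.sup (fun f => ((Lf f).map fun a => (seqW a.1).length).sum)
      + (seqW r).length + 1 := ⟨_, rfl⟩
  have hrM : (seqW r).length < M := by omega
  have haM : ∀ f ∈ F, ∀ a ∈ Lf f, (seqW a.1).length < M := by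
    intro f hf a ha
    have h1 : (seqW a.1).length ≤ ((Lf f).map fun a => (seqW a.1).length).sum :=
      List.single_le_sum (fun _ _ => Nat.zero_le _) _ (List.mem_map_of_mem ha)
    have h2 : ((Lf f).map fun a => (seqW a.1).length).sum ≤
        F.sup (fun f => ((Lf f).map fun a => (seqW a.1).length).sum) :=
      Finset.le_sup (f := fun f => ((Lf f).map fun a => (seqW a.1).length).sum) hf
    omega
  refine ⟨⟨W S.l (seqW r ++ hh M), Ws S.l (seqW r ++ hh M), ?_⟩, ?_⟩
  · rw [Ws_mul_W S.fam hrM hrM (good_seqW r) (good_seqW r), if_pos rfl]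
  · intro f hf
    obtain ⟨h1, h2⟩ := hLf f hf
    have key : Ws S.l (seqW r ++ hh M) * f * W S.l (seqW r ++ hh M) =
        Ws S.l (seqW r ++ hh M) *
          (((Lf f).map fun a => W S.l (seqW a.1) * a.2).sum * W S.l (hh M)) := by
      rw [← h2, W_append]
      simp only [mul_assoc]
    show Ws S.l (seqW r ++ hh M) * f * W S.l (seqW r ++ hh M) ∈ S.D
    rw [key]
    exact scal_sum S (seqW r) M hrM (good_seqW r) (Lf f) h1 (haM f hf)

end P193.L
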