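import Vale.Agent.Lib.P193.L.Defs

/-!
# P193 part L, module Model: a nontrivial model (L9)

`X = Stream' Item` (infinite stacks), `S = Module.End (ZMod 2) (X →₀ ZMod 2)`. For a partial map
`f : X → Option X` put `act f (single x 1) = single y 1` if `f x = some y`, and `0` if `f x = none`;
`act (f >=> g)` is the product. Letters of level 0: `z : t ↦ num 0 :: t`; `u : num k :: t ↦ num (k+1) :: t`,
undefined if the top item is a pair; `m : a :: b :: t ↦ pair a b :: t`; `z* : num 0 :: t ↦ t`, undefined
otherwise; `u* : num (k+1) :: t ↦ num k :: t`, undefined otherwise; `m* : pair a b :: t ↦ a :: b :: t`,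
undefined otherwise. Level `n+1`: `a :: t ↦ a :: (level n applied to t)`.
All the relations are checked on basis vectors: `(a_n)` by induction on `n`, `(b_{n,k})` by
induction on `k` (first `k = 0`, `n ≥ 1`).
-/

namespace P193.L

namespace Model

/-- infinite stacks -/
abbrev X : Type := Stream' Item

/-- the space on which the letters act -/
abbrev V : Type := X →₀ ZMod 2

/-- the ring of all endomorphisms -/
abbrev E : Type := Module.End (ZMod 2) V

/-- push the item `a` -/
noncomputable def C (a : Item) : E := Finsupp.lmapDomain (ZMod 2) (ZMod 2) (Stream'.cons a)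

/-- the endomorphism which is `F a` after pushing `a` -/
noncomputable def glue (F : Item → E) : E :=
  Finsupp.linearCombination (ZMod 2) fun s : X => F s.head (Finsupp.single s.tail 1)

lemma C_single (a : Item) (s : X) (c : ZMod 2) :
    C a (Finsupp.single s c) = Finsupp.single (Stream'.cons a s) c := by
  simp [C, Finsupp.lmapDomain_apply, Finsupp.mapDomain_single]

lemma glue_C (F : Item → E) (a : Item) : glue F * C a = F a := by
  refine Finsupp.lhom_ext' fun s => LinearMap.ext_ring ?_
  show glue F (C a (Finsupp.single s 1)) = F a (Finsupp.single s 1)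
  rw [C_single, glue, Finsupp.linearCombination_single, one_smul, Stream'.head_cons,
    Stream'.tail_cons]

lemma glue_C_mul (F : Item → E) (a : Item) (B : E) : glue F * (C a * B) = F a * B := by
  rw [← mul_assoc, glue_C]

lemma ext_C {A B : E} (h : ∀ a, A * C a = B * C a) : A = B := by
  refine Finsupp.lhom_ext' fun s => LinearMap.ext_ring ?_
  show A (Finsupp.single s 1) = B (Finsupp.single s 1)
  have h1 := congrArg (fun T : E => T (Finsupp.single s.tail 1)) (h s.head)
  have h2 : A (C s.head (Finsupp.single s.tail 1)) = B (C s.head (Finsupp.single s.tail 1)) := h1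
  rw [C_single, Stream'.eta] at h2
  exact h2

/-- act below the first item -/
noncomputable def up : E →+* E where
  toFun A := glue fun a => C a * A
  map_one' := ext_C fun a => by rw [glue_C, mul_one, one_mul]
  map_mul' A B := ext_C fun a => by rw [glue_C, mul_assoc, glue_C, glue_C_mul, mul_assoc]
  map_zero' := ext_C fun a => by rw [glue_C, mul_zero, zero_mul]
  map_add' A B := ext_C fun a => by rw [glue_C, add_mul, glue_C, glue_C, mul_add]

lemma up_C (A : E) (a : Item) : up A * C a = C a * A := by
  show glue (fun a => C a * A) * C a = C a * A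
  rw [glue_C]

lemma up_C_mul (A : E) (a : Item) (B : E) : up A * (C a * B) = C a * (A * B) := by
  rw [← mul_assoc, up_C, mul_assoc]

/-- `u` on the top item -/
noncomputable def fU : Item → E
  | .num k => C (.num (k + 1))
  | .pair _ _ => 0

/-- `m` on the two top items -/
noncomputable def fM (a : Item) : E := glue fun b => C (.pair a b)

/-- `z*` on the top item -/
noncomputable def fZs : Item → E
  | .num 0 => 1
  | .num (_ + 1) => 0
  | .pair _ _ => 0

/-- `u*` on the top item -/
noncomputable def fUs : Item → E
  | .num 0 => 0
  | .num (k + 1) => C (.num k)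
  | .pair _ _ => 0

/-- `m*` on the top item -/
noncomputable def fMs : Item → E
  | .num _ => 0
  | .pair b c => C b * C c

/-- the letters of level 0 -/
noncomputable def base : Bool → Ltr → E
  | false, .z => C (.num 0)
  | false, .u => glue fU
  | false, .m => glue fM
  | true, .z => glue fZs
  | true, .u => glue fUs
  | true, .m => glue fMs

lemma z_def : base false .z = C (.num 0) := by rw [base]

lemma u_num (k : ℕ) : base false .u * C (.num k) = C (.num (k + 1)) := by
  rw [base, glue_C, fU]

lemma u_pair (b c : Item) : base false .u * C (.pair b c) = 0 := by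
  rw [base, glue_C, fU]

lemma m_C (a b : Item) : base false .m * (C a * C b) = C (.pair a b) := by
  rw [base, glue_C_mul, fM, glue_C]

lemma zs_zero : base true .z * C (.num 0) = 1 := by
  rw [base, glue_C, fZs]

lemma zs_succ (k : ℕ) : base true .z * C (.num (k + 1)) = 0 := by
  rw [base, glue_C, fZs]

lemma zs_pair (b c : Item) : base true .z * C (.pair b c) = 0 := by
  rw [base, glue_C, fZs]

lemma us_zero : base true .u * C (.num 0) = 0 := by
  rw [base, glue_C, fUs]

lemma us_succ (k : ℕ) : base true .u * C (.num (k + 1)) = C (.num k) := by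
  rw [base, glue_C, fUs]

lemma us_pair (b c : Item) : base true .u * C (.pair b c) = 0 := by
  rw [base, glue_C, fUs]

lemma ms_num (k : ℕ) : base true .m * C (.num k) = 0 := by
  rw [base, glue_C, fMs]

lemma ms_pair (b c : Item) : base true .m * C (.pair b c) = C b * C c := by
  rw [base, glue_C, fMs]

/-! ### the relations at level 0 -/

lemma r_zz : base true .z * base false .z = 1 := by rw [z_def, zs_zero]

lemma r_mm : base true .m * base false .m = 1 :=
  ext_C fun a => ext_C fun b => by
    rw [mul_assoc, mul_assoc, m_C, ms_pair, one_mul]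

lemma r_zu : base true .z * base false .u = 0 :=
  ext_C fun a => by
    rw [mul_assoc, zero_mul]
    rcases a with k | ⟨b, c⟩
    · rw [u_num, zs_succ]
    · rw [u_pair, mul_zero]

lemma r_zm : base true .z * base false .m = 0 :=
  ext_C fun a => ext_C fun b => by
    rw [mul_assoc, mul_assoc, m_C, zs_pair, zero_mul, zero_mul]

lemma r_uz : base true .u * base false .z = 0 := by rw [z_def, us_zero]

lemma r_um : base true .u * base false .m = 0 :=
  ext_C fun a => ext_C fun b => by
    rw [mul_assoc, mul_assoc, m_C, us_pair, zero_mul, zero_mul]

lemma r_mz : base true .m * base false .z = 0 := by rw [z_def, ms_num]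

lemma r_mu : base true .m * base false .u = 0 :=
  ext_C fun a => by
    rw [mul_assoc, zero_mul]
    rcases a with k | ⟨b, c⟩
    · rw [u_num, ms_num]
    · rw [u_pair, mul_zero]

lemma r_part : base false .z * base true .z + base false .u * base true .u
    + base false .m * base true .m = 1 :=
  ext_C fun a => by
    rw [add_mul, add_mul, mul_assoc, mul_assoc, mul_assoc, one_mul]
    rcases a with (_ | k) | ⟨b, c⟩
    · rw [zs_zero, us_zero, ms_num, mul_one, mul_zero, mul_zero, add_zero, add_zero, z_def]
    · rw [zs_succ, us_succ, ms_num, mul_zero, mul_zero, u_num, add_zero, zero_add]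
    · rw [zs_pair, us_pair, ms_pair, mul_zero, mul_zero, m_C, add_zero, zero_add]

lemma r_uu : base true .u * base false .u
    = base false .z * base true .z + base false .u * base true .u :=
  ext_C fun a => by
    rw [add_mul, mul_assoc, mul_assoc, mul_assoc]
    rcases a with (_ | k) | ⟨b, c⟩
    · rw [zs_zero, us_zero, u_num, us_succ, mul_one, mul_zero, add_zero, z_def]
    · rw [zs_succ, us_succ, u_num, u_num, us_succ, mul_zero, zero_add]
    · rw [zs_pair, us_pair, u_pair, mul_zero, mul_zero, mul_zero, add_zero]

/-! ### the relations `(b)` for `k = 0` -/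

lemma b1z (A : E) : up A * base false .z = base false .z * A := by rw [z_def, up_C]

lemma b1u (A : E) : up A * base false .u = base false .u * up A :=
  ext_C fun a => by
    rw [mul_assoc, mul_assoc, up_C]
    rcases a with k | ⟨b, c⟩
    · rw [u_num, up_C, ← mul_assoc, u_num]
    · rw [u_pair, ← mul_assoc, u_pair, mul_zero, zero_mul]

lemma b1m (A : E) : up A * base false .m = base false .m * up (up A) :=
  ext_C fun a => ext_C fun b => by
    rw [mul_assoc, mul_assoc, m_C, up_C, mul_assoc, mul_assoc, up_C_mul, up_C, ← m_C,
      mul_assoc, mul_assoc]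

lemma b2z (A : E) : base true .z * up A = A * base true .z :=
  ext_C fun a => by
    rw [mul_assoc, mul_assoc, up_C, ← mul_assoc]
    rcases a with (_ | k) | ⟨b, c⟩
    · rw [zs_zero, mul_one, one_mul]
    · rw [zs_succ, mul_zero, zero_mul]
    · rw [zs_pair, mul_zero, zero_mul]

lemma b2u (A : E) : base true .u * up A = up A * base true .u :=
  ext_C fun a => by
    rw [mul_assoc, mul_assoc, up_C, ← mul_assoc]
    rcases a with (_ | k) | ⟨b, c⟩
    · rw [us_zero, mul_zero, zero_mul]
    · rw [us_succ, up_C]
    · rw [us_pair, mul_zero, zero_mul]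

lemma b2m (A : E) : base true .m * up A = up (up A) * base true .m :=
  ext_C fun a => by
    rw [mul_assoc, mul_assoc, up_C, ← mul_assoc]
    rcases a with k | ⟨b, c⟩
    · rw [ms_num, mul_zero, zero_mul]
    · rw [ms_pair, up_C_mul, up_C, mul_assoc]

/-- the letters of all levels -/
noncomputable def fam (st : Bool) (x : Ltr) : ℕ → E
  | 0 => base st x
  | n + 1 => up (fam st x n)

lemma fam_zero (st : Bool) (x : Ltr) : fam st x 0 = base st x := rfl

lemma fam_succ (st : Bool) (x : Ltr) (n : ℕ) : fam st x (n + 1) = up (fam st x n) := rfl

lemma fam_b1 (st : Bool) (x y : Ltr) (k : ℕ) : ∀ n, k < n →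
    fam st x n * fam false y k = fam false y k * fam st x (n + y.ar - 1) := by
  induction k with
  | zero =>
    intro n hn
    obtain ⟨n, rfl⟩ : ∃ j, n = j + 1 := ⟨n - 1, by omega⟩
    rw [fam_zero, fam_succ]
    rcases y with _ | _ | _
    · exact b1z _
    · exact b1u _
    · exact b1m _
  | succ k ih =>
    intro n hn
    obtain ⟨n, rfl⟩ : ∃ j, n = j + 1 := ⟨n - 1, by omega⟩
    have h := congrArg up (ih n (by omega))
    rw [map_mul, map_mul] at h
    have e : n + 1 + y.ar - 1 = (n + y.ar - 1) + 1 := by omega
    rw [e, fam_succ, fam_succ, fam_succ]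
    exact h

lemma fam_b2 (st : Bool) (x y : Ltr) (k : ℕ) : ∀ n, k < n →
    fam true y k * fam st x n = fam st x (n + y.ar - 1) * fam true y k := by
  induction k with
  | zero =>
    intro n hn
    obtain ⟨n, rfl⟩ : ∃ j, n = j + 1 := ⟨n - 1, by omega⟩
    rw [fam_zero, fam_succ]
    rcases y with _ | _ | _
    · exact b2z _
    · exact b2u _
    · exact b2m _
  | succ k ih =>
    intro n hn
    obtain ⟨n, rfl⟩ : ∃ j, n = j + 1 := ⟨n - 1, by omega⟩
    have h := congrArg up (ih n (by omega))
    rw [map_mul, map_mul] at h
    have e : n + 1 + y.ar - 1 = (n + y.ar - 1) + 1 := by omega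
    rw [e, fam_succ, fam_succ, fam_succ]
    exact h

lemma up_rel {A B D : E} (h : A * B = D) : up A * up B = up D := by rw [← map_mul, h]

lemma isLFam : IsLFam fam where
  zz n := by
    induction n with
    | zero => exact r_zz
    | succ n ih => exact (up_rel ih).trans (map_one up)
  mm n := by
    induction n with
    | zero => exact r_mm
    | succ n ih => exact (up_rel ih).trans (map_one up)
  zu n := by
    induction n with
    | zero => exact r_zu
    | succ n ih => exact (up_rel ih).trans (map_zero up)
  zm n := by
    induction n with
    | zero => exact r_zm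
    | succ n ih => exact (up_rel ih).trans (map_zero up)
  uz n := by
    induction n with
    | zero => exact r_uz
    | succ n ih => exact (up_rel ih).trans (map_zero up)
  um n := by
    induction n with
    | zero => exact r_um
    | succ n ih => exact (up_rel ih).trans (map_zero up)
  mz n := by
    induction n with
    | zero => exact r_mz
    | succ n ih => exact (up_rel ih).trans (map_zero up)
  mu n := by
    induction n with
    | zero => exact r_mu
    | succ n ih => exact (up_rel ih).trans (map_zero up)
  part n := by
    induction n with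
    | zero => exact r_part
    | succ n ih =>
      have h := congrArg up ih
      rw [map_add, map_add, map_mul, map_mul, map_mul, map_one] at h
      exact h
  uu n := by
    induction n with
    | zero => exact r_uu
    | succ n ih =>
      have h := congrArg up ih
      rw [map_add, map_mul, map_mul, map_mul] at h
      exact h
  b1 n k st x y h := fam_b1 st x y k n h
  b2 n k st x y h := fam_b2 st x y k n h

lemma nontrivial_E : Nontrivial E := by
  have : Nontrivial V := ⟨⟨Finsupp.single (Stream'.const (.num 0)) 1, 0, by
    intro h
    have := DFunLike.congr_fun h (Stream'.const (.num 0))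
    simp at this⟩⟩
  infer_instance

end Model

theorem exists_model : ∃ (S : Type) (_ : Ring S) (_ : Algebra (ZMod 2) S) (_ : Nontrivial S)
    (l : Bool → Ltr → ℕ → S), IsLFam l :=
  ⟨Model.E, inferInstance, inferInstance, Model.nontrivial_E, Model.fam, Model.isLFam⟩

end P193.L
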