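import Vale.Agent.Lib.P193.L.Lift
import Vale.Agent.Lib.P193.L.Model

/-!
# P193 part L, module Tensor: the system for `A ⊗ L`

`l st x n = 1 ⊗ lL st x n` (`IsLFam.map` with `Algebra.TensorProduct.includeRight`), `D` = the range of
`includeLeft`, `φ = id ⊗ φ_L` (`Algebra.TensorProduct.map`). Generation: `adjoin_lL`; every element is a sum of
`a ⊗ t = (a ⊗ 1)(1 ⊗ t)`. `L` is nontrivial: `exists_liftL` and `exists_model`, so `A → A ⊗ L` is injective
(`Algebra.TensorProduct.includeLeft_injective`, everything is flat over the field `ZMod 2`).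
-/

open scoped TensorProduct

namespace P193.L

universe u

instance : Nontrivial LAlg := by
  obtain ⟨S, hR, hA, hN, l, hl⟩ := exists_model
  obtain ⟨f, -⟩ := exists_liftL hl
  exact f.toRingHom.domain_nontrivial

theorem includeLeft_inj (A : Type u) [Ring A] [Algebra (ZMod 2) A] :
    Function.Injective (Algebra.TensorProduct.includeLeft : A →ₐ[ZMod 2] A ⊗[ZMod 2] LAlg) :=
  Algebra.TensorProduct.includeLeft_injective (algebraMap (ZMod 2) LAlg).injective

theorem exists_sys (A : Type u) [Ring A] [Algebra (ZMod 2) A] :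
    ∃ S : Sys (A ⊗[ZMod 2] LAlg),
      S.D = (Algebra.TensorProduct.includeLeft : A →ₐ[ZMod 2] A ⊗[ZMod 2] LAlg).toRingHom.range := by
  obtain ⟨f, hf⟩ := exists_phiL
  let D : Subring (A ⊗[ZMod 2] LAlg) :=
    (Algebra.TensorProduct.includeLeft : A →ₐ[ZMod 2] A ⊗[ZMod 2] LAlg).toRingHom.range
  let R : LAlg →ₐ[ZMod 2] A ⊗[ZMod 2] LAlg := Algebra.TensorProduct.includeRight
  have hR : ∀ b : LAlg, R b ∈
      Subring.closure ((D : Set (A ⊗[ZMod 2] LAlg)) ∪ {t | ∃ st x n, t = R (lL st x n)}) := by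
    intro b
    have hb : b ∈ Algebra.adjoin (ZMod 2) {t : LAlg | ∃ st x n, t = lL st x n} := by
      rw [adjoin_lL]
      exact Algebra.mem_top
    induction hb using Algebra.adjoin_induction with
    | mem x hx =>
      obtain ⟨st, y, n, rfl⟩ := hx
      exact Subring.subset_closure (Or.inr ⟨st, y, n, rfl⟩)
    | algebraMap r =>
      refine Subring.subset_closure (Or.inl ?_)
      refine ⟨algebraMap (ZMod 2) A r, ?_⟩
      change (algebraMap (ZMod 2) A r) ⊗ₜ[ZMod 2] (1 : LAlg) = R (algebraMap (ZMod 2) LAlg r)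
      rw [AlgHom.commutes, Algebra.TensorProduct.algebraMap_apply]
    | add x y _ _ hx hy =>
      rw [map_add]
      exact Subring.add_mem _ hx hy
    | mul x y _ _ hx hy =>
      rw [map_mul]
      exact Subring.mul_mem _ hx hy
  refine ⟨{ l := fun st x n => R (lL st x n)
            fam := isLFam_lL.map R.toRingHom
            D := D
            comm := ?_
            gen := ?_
            φ := (Algebra.TensorProduct.map (AlgHom.id (ZMod 2) A) f).toRingHom
            φl := ?_
            φD := ?_ }, rfl⟩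
  · rintro _ ⟨a, rfl⟩ st x n
    change Commute (a ⊗ₜ[ZMod 2] (1 : LAlg)) ((1 : A) ⊗ₜ[ZMod 2] lL st x n)
    rw [commute_iff_eq, Algebra.TensorProduct.tmul_mul_tmul, Algebra.TensorProduct.tmul_mul_tmul,
      one_mul, mul_one, one_mul, mul_one]
  · rw [eq_top_iff]
    intro t _
    induction t using TensorProduct.induction_on with
    | zero => exact Subring.zero_mem _
    | tmul a b =>
      have h1 : a ⊗ₜ[ZMod 2] b = (a ⊗ₜ[ZMod 2] (1 : LAlg)) * R b := by
        change a ⊗ₜ[ZMod 2] b = (a ⊗ₜ[ZMod 2] (1 : LAlg)) * ((1 : A) ⊗ₜ[ZMod 2] b)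
        rw [Algebra.TensorProduct.tmul_mul_tmul, one_mul, mul_one]
      rw [h1]
      exact Subring.mul_mem _ (Subring.subset_closure (Or.inl ⟨a, rfl⟩)) (hR b)
    | add x y hx hy => exact Subring.add_mem _ (hx trivial) (hy trivial)
  · intro st x n
    change Algebra.TensorProduct.map (AlgHom.id (ZMod 2) A) f ((1 : A) ⊗ₜ[ZMod 2] lL st x n)
      = (1 : A) ⊗ₜ[ZMod 2] lL st x (n + 1)
    rw [Algebra.TensorProduct.map_tmul, hf]
    rfl
  · rintro _ ⟨a, rfl⟩
    change Algebra.TensorProduct.map (AlgHom.id (ZMod 2) A) f (a ⊗ₜ[ZMod 2] (1 : LAlg))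
      = a ⊗ₜ[ZMod 2] (1 : LAlg)
    rw [Algebra.TensorProduct.map_tmul, map_one]
    rfl

end P193.L
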