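import Vale.Agent.Lib.P193.L.A13
import Vale.Agent.Lib.P193.L.Pure
import Vale.Agent.Lib.P193.L.Scal
import Vale.Agent.Lib.P193.L.FP
import Vale.Agent.Lib.P193.L.Tensor

/-!
# P193 part L, module Final: `A ⊗ L` satisfies all the hypotheses of part II

(P): `x r y = a ⊗ 1 ≠ 0` (`pureD`), then (P) for `A`. (SCAL): `q* f q = a_f ⊗ 1` (`scalD`), then (SCAL) for
`A` and the finite set of the `a_f`: `q₂`; take `q * (q₂ ⊗ 1)`.
-/

open scoped TensorProduct

namespace P193.L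

universe u

/-- hypotheses on the coefficient algebra -/
structure CHyp (A : Type u) [Ring A] [Algebra (ZMod 2) A] : Prop where
  nontriv : Nontrivial A
  pure : HPure A
  scal : HScal A
  fp : FinPres A

theorem rHyp_tensor (A : Type u) [Ring A] [Algebra (ZMod 2) A] (h : CHyp A) :
    RHyp (A ⊗[ZMod 2] LAlg) := by
  obtain ⟨S, hS⟩ := exists_sys A
  have hmem : ∀ {t : A ⊗[ZMod 2] LAlg}, t ∈ S.D → ∃ a : A,
      (Algebra.TensorProduct.includeLeft : A →ₐ[ZMod 2] A ⊗[ZMod 2] LAlg) a = t := by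
    intro t ht
    rw [hS] at ht
    exact ht
  refine ⟨?_, S.leavitt, S.rep, ?_, ?_, finPres_tensor h.fp finPres_L⟩
  · have := h.nontriv
    exact (includeLeft_inj A).nontrivial
  · intro z hz
    obtain ⟨x, y, hxy, hne⟩ := S.pureD hz
    obtain ⟨a, ha⟩ := hmem hxy
    have ha0 : a ≠ 0 := by
      rintro rfl
      apply hne
      rw [← ha, map_zero]
    obtain ⟨x', y', h1⟩ := h.pure a ha0
    refine ⟨(Algebra.TensorProduct.includeLeft : A →ₐ[ZMod 2] A ⊗[ZMod 2] LAlg) x' * x,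
      y * (Algebra.TensorProduct.includeLeft : A →ₐ[ZMod 2] A ⊗[ZMod 2] LAlg) y', ?_⟩
    have e1 : (Algebra.TensorProduct.includeLeft : A →ₐ[ZMod 2] A ⊗[ZMod 2] LAlg) x' * x * z
        * (y * (Algebra.TensorProduct.includeLeft : A →ₐ[ZMod 2] A ⊗[ZMod 2] LAlg) y')
        = (Algebra.TensorProduct.includeLeft : A →ₐ[ZMod 2] A ⊗[ZMod 2] LAlg) x' * (x * z * y)
        * (Algebra.TensorProduct.includeLeft : A →ₐ[ZMod 2] A ⊗[ZMod 2] LAlg) y' := by
      simp only [mul_assoc]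
    rw [e1, ← ha, ← map_mul, ← map_mul, h1, map_one]
  · intro F
    classical
    obtain ⟨q, hq⟩ := S.scalD F
    choose a ha using fun f : {f // f ∈ F} => hmem (hq f.1 f.2)
    obtain ⟨q₂, hq₂⟩ := h.scal (F.attach.image a)
    let i : A →ₐ[ZMod 2] A ⊗[ZMod 2] LAlg := Algebra.TensorProduct.includeLeft
    have hi : i q₂.st * i q₂.val = 1 := by rw [← map_mul, q₂.st_val, map_one]
    refine ⟨q * ⟨i q₂.val, i q₂.st, hi⟩, ?_⟩
    intro f hf
    have e1 := hq₂ (a ⟨f, hf⟩) (Finset.mem_image.2 ⟨⟨f, hf⟩, Finset.mem_attach _ _, rfl⟩)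
    have e2 : i (a ⟨f, hf⟩) = q.st * f * q.val := ha ⟨f, hf⟩
    have e3 : (q * (⟨i q₂.val, i q₂.st, hi⟩ : Isom (A ⊗[ZMod 2] LAlg))).st * f *
        (q * (⟨i q₂.val, i q₂.st, hi⟩ : Isom (A ⊗[ZMod 2] LAlg))).val
        = i (q₂.st * a ⟨f, hf⟩ * q₂.val) := by
      have e4 : i (q₂.st * a ⟨f, hf⟩ * q₂.val) = i q₂.st * (q.st * f * q.val) * i q₂.val := by
        rw [← e2, map_mul, map_mul]
      rw [e4]
      show i q₂.st * q.st * f * (q.val * i q₂.val) = _
      simp only [mul_assoc]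
    rw [e3]
    rcases e1 with e1 | e1
    · left
      rw [e1, map_zero]
    · right
      rw [e1, map_one]

/-- the unit group of `A` embeds in the unit group of `A ⊗ L` -/
theorem exists_units_embedding (A : Type u) [Ring A] [Algebra (ZMod 2) A] :
    ∃ f : Aˣ →* (A ⊗[ZMod 2] LAlg)ˣ, Function.Injective f := by
  refine ⟨Units.map ((Algebra.TensorProduct.includeLeft : A →ₐ[ZMod 2] A ⊗[ZMod 2] LAlg) :
    A →* A ⊗[ZMod 2] LAlg), ?_⟩
  exact Units.map_injective (includeLeft_inj A)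

end P193.L
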