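import Vale.Agent.Lib.P193.L.Rel

/-!
# P193 part L, module Lift: universal property of `L`

`lev_levels`: for a family `l` satisfying all relations, `x^(n+1) = m*^(0) x^(n) m^(0)` for `n ≥ 1` (`b1` with
`y = m`, `k = 0`, and `m* m = 1`), so `lev` of its letters of level 0 and 1 is `l`.
`lrel_levels`: hence the finitely many relations hold. `shift`: `(a_{n+1})`, `(b_{n+1,k+1})`.
`map`: apply a ring homomorphism. `lrel_gL`: `RingQuot.mkAlgHom_rel`, `relList` is natural
(`map_relList`). `liftL`: `RingQuot.liftAlgHom` and `FreeAlgebra.lift`.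
-/

namespace P193.L

universe u v
variable {S : Type u} [Ring S]

theorem map_lev {T : Type v} [Ring T] (f : S →+* T) (g : Bool → Ltr → Bool → S) (st : Bool)
    (x : Ltr) (n : ℕ) : f (lev g st x n) = lev (fun st x i => f (g st x i)) st x n := by
  induction n using Nat.strong_induction_on with
  | _ n ih =>
    match n, ih with
    | 0, _ => rfl
    | 1, _ => rfl
    | (n + 2), ih =>
      rw [lev, lev, map_mul, map_mul, ih (n + 1) (by omega)]

theorem map_relList {T : Type v} [Ring T] (f : S →+* T) (g : Bool → Ltr → Bool → S) :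
    (relList g).map f = relList (fun st x i => f (g st x i)) := by
  simp only [relList, aRel, bRel, List.map_append, List.map_flatMap, List.map_cons, List.map_nil,
    map_sub, map_mul, map_add, map_one, map_lev f g]

theorem lev_levels {l : Bool → Ltr → ℕ → S} (h : IsLFam l) (st : Bool) (x : Ltr) (n : ℕ) :
    lev (fun st x (i : Bool) => l st x i.toNat) st x n = l st x n := by
  induction n using Nat.strong_induction_on with
  | _ n ih =>
    match n, ih with
    | 0, _ => rfl
    | 1, _ => rfl
    | (n + 2), ih =>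
      rw [lev, ih (n + 1) (by omega)]
      have h1 := h.b1 (n + 1) 0 st x .m (by omega)
      have h2 : n + 1 + Ltr.m.ar - 1 = n + 2 := rfl
      rw [h2] at h1
      show l true .m 0 * l st x (n + 1) * l false .m 0 = l st x (n + 2)
      rw [mul_assoc, h1, ← mul_assoc, h.mm, one_mul]

theorem lrel_levels {l : Bool → Ltr → ℕ → S} (h : IsLFam l) :
    LRel (fun st x (i : Bool) => l st x i.toNat) := by
  have e : lev (fun st x (i : Bool) => l st x i.toNat) = l := by
    funext st x n
    exact lev_levels h st x n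
  refine LRel.mk' (fun n _ => AFam.aRel ?_) ?_
  · rw [e]
    exact ⟨h.zz n, h.mm n, h.zu n, h.zm n, h.uz n, h.um n, h.mz n, h.mu n, h.part n, h.uu n⟩
  · intro n k hk st x y
    have hkn : k < n := by
      simp only [List.mem_cons, Prod.mk.injEq, List.not_mem_nil, or_false] at hk
      omega
    simp only [bRel, List.mem_cons, List.not_mem_nil, or_false, forall_eq_or_imp, forall_eq, e]
    exact ⟨sub_eq_zero.2 (h.b1 n k st x y hkn), sub_eq_zero.2 (h.b2 n k st x y hkn)⟩

theorem IsLFam.shift {l : Bool → Ltr → ℕ → S} (h : IsLFam l) :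
    IsLFam (fun st x n => l st x (n + 1)) := by
  have e : ∀ (n k : ℕ) (y : Ltr), k < n → n + 1 + y.ar - 1 = n + y.ar - 1 + 1 := by
    intro n k y hk
    omega
  exact
  { zz := fun n => h.zz (n + 1)
    mm := fun n => h.mm (n + 1)
    zu := fun n => h.zu (n + 1)
    zm := fun n => h.zm (n + 1)
    uz := fun n => h.uz (n + 1)
    um := fun n => h.um (n + 1)
    mz := fun n => h.mz (n + 1)
    mu := fun n => h.mu (n + 1)
    part := fun n => h.part (n + 1)
    uu := fun n => h.uu (n + 1)
    b1 := fun n k st x y hk => by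
      have h1 := h.b1 (n + 1) (k + 1) st x y (by omega)
      rw [e n k y hk] at h1
      exact h1
    b2 := fun n k st x y hk => by
      have h1 := h.b2 (n + 1) (k + 1) st x y (by omega)
      rw [e n k y hk] at h1
      exact h1 }

theorem IsLFam.map {T : Type v} [Ring T] {l : Bool → Ltr → ℕ → S} (h : IsLFam l) (f : S →+* T) :
    IsLFam (fun st x n => f (l st x n)) := by
  exact
  { zz := fun n => by rw [← map_mul, h.zz, map_one]
    mm := fun n => by rw [← map_mul, h.mm, map_one]
    zu := fun n => by rw [← map_mul, h.zu, map_zero]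
    zm := fun n => by rw [← map_mul, h.zm, map_zero]
    uz := fun n => by rw [← map_mul, h.uz, map_zero]
    um := fun n => by rw [← map_mul, h.um, map_zero]
    mz := fun n => by rw [← map_mul, h.mz, map_zero]
    mu := fun n => by rw [← map_mul, h.mu, map_zero]
    part := fun n => by
      rw [← map_mul, ← map_mul, ← map_mul, ← map_add, ← map_add, h.part, map_one]
    uu := fun n => by
      rw [← map_mul, ← map_mul, ← map_mul, ← map_add, h.uu]
    b1 := fun n k st x y hk => by
      rw [← map_mul, ← map_mul, h.b1 n k st x y hk]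
    b2 := fun n k st x y hk => by
      rw [← map_mul, ← map_mul, h.b2 n k st x y hk] }

theorem lrel_gL : LRel gL := by
  intro r hr
  have h1 := map_relList (RingQuot.mkAlgHom (ZMod 2) relL).toRingHom gens
  have h2 : relList gL
      = (relList gens).map (RingQuot.mkAlgHom (ZMod 2) relL).toRingHom := h1.symm
  rw [h2] at hr
  obtain ⟨a, ha, rfl⟩ := List.mem_map.1 hr
  have h3 := RingQuot.mkAlgHom_rel (ZMod 2) (s := relL) (x := a) (y := 0) ⟨ha, rfl⟩
  rw [map_zero] at h3
  exact h3

/-- the letters of `L` -/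
noncomputable def lL : Bool → Ltr → ℕ → LAlg := lev gL

theorem isLFam_lL : IsLFam lL := isLFam_lev lrel_gL

theorem exists_liftL {S : Type u} [Ring S] [Algebra (ZMod 2) S] {l : Bool → Ltr → ℕ → S}
    (h : IsLFam l) : ∃ f : LAlg →ₐ[ZMod 2] S, ∀ st x n, f (lL st x n) = l st x n := by
  let F : FA →ₐ[ZMod 2] S :=
    FreeAlgebra.lift (ZMod 2) (fun p : Gen => l p.1 p.2.1 p.2.2.toNat)
  have hFg : ∀ st x i, F (gens st x i) = l st x i.toNat := by
    intro st x i
    simp only [F, gens, FreeAlgebra.lift_ι_apply]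
  have hF : ∀ ⦃a b : FA⦄, relL a b → F a = F b := by
    rintro a b ⟨ha, rfl⟩
    rw [map_zero]
    have h1 : F a ∈ (relList gens).map F.toRingHom := List.mem_map.2 ⟨a, ha, rfl⟩
    rw [map_relList] at h1
    have h2 : (fun st x i => F.toRingHom (gens st x i)) = fun st x (i : Bool) => l st x i.toNat := by
      funext st x i
      exact hFg st x i
    rw [h2] at h1
    exact lrel_levels h _ h1
  refine ⟨RingQuot.liftAlgHom (ZMod 2) ⟨F, hF⟩, ?_⟩
  intro st x n
  have h1 := map_lev (RingQuot.liftAlgHom (ZMod 2) ⟨F, hF⟩).toRingHom gL st x n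
  have h2 : (fun st x i => (RingQuot.liftAlgHom (ZMod 2) ⟨F, hF⟩).toRingHom (gL st x i))
      = fun st x (i : Bool) => l st x i.toNat := by
    funext st x i
    show RingQuot.liftAlgHom (ZMod 2) ⟨F, hF⟩ (RingQuot.mkAlgHom (ZMod 2) relL (gens st x i)) = _
    rw [RingQuot.liftAlgHom_mkAlgHom_apply]
    exact hFg st x i
  rw [h2] at h1
  exact h1.trans (lev_levels h st x n)

/-- the shift endomorphism of `L` -/
theorem exists_phiL : ∃ f : LAlg →ₐ[ZMod 2] LAlg, ∀ st x n, f (lL st x n) = lL st x (n + 1) :=
  exists_liftL isLFam_lL.shift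

/-- `L` is generated by the letters -/
theorem adjoin_lL : Algebra.adjoin (ZMod 2) {t : LAlg | ∃ st x n, t = lL st x n} = ⊤ := by
  rw [eq_top_iff]
  intro t _
  obtain ⟨a, rfl⟩ := RingQuot.mkAlgHom_surjective (ZMod 2) relL t
  have h1 : a ∈ Algebra.adjoin (ZMod 2) (Set.range (FreeAlgebra.ι (ZMod 2) (X := Gen))) := by
    rw [FreeAlgebra.adjoin_range_ι]
    trivial
  induction h1 using Algebra.adjoin_induction with
  | mem x hx =>
    obtain ⟨⟨st, x, i⟩, rfl⟩ := hx
    apply Algebra.subset_adjoin
    refine ⟨st, x, i.toNat, ?_⟩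
    cases i <;> rfl
  | algebraMap r =>
    rw [AlgHom.commutes]
    exact Subalgebra.algebraMap_mem _ r
  | add x y _ _ hx hy =>
    rw [map_add]
    exact add_mem (hx trivial) (hy trivial)
  | mul x y _ _ hx hy =>
    rw [map_mul]
    exact mul_mem (hx trivial) (hy trivial)

end P193.L
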