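import Vale.Agent.Lib.P193.L.Defs

/-!
# P193 part L, module Phi: the letters of level 0 and `φ`

`u_mul_m`: `u m = (z z* + u u* + m m*) u m = z (z* u) m + u (u* u) m + m (m* u) m
= u (u* u m)` and `u* u m = (z z* + u u*) m = 0` (`z* m = 0`, `u* m = 0`). Mirror: `m* u* = 0`.
The statements on `φ`: for `r` a letter of level `n` it is `(b_{n+1,0})`, for `r ∈ D` it is `comm`,
then `Subring.closure_induction` with `S.gen` (for `phi_m`: `φ (r s) m = φ r m φ² s = m φ² r φ² s`).
-/

namespace P193.L

universe u
variable {T : Type u} [Ring T]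

theorem IsLFam.u_mul_m {l : Bool → Ltr → ℕ → T} (h : IsLFam l) (n : ℕ) :
    l false .u n * l false .m n = 0 := by
  have h1 : l false .u n * l false .m n = (l false .z n * l true .z n
      + l false .u n * l true .u n + l false .m n * l true .m n)
      * (l false .u n * l false .m n) := by rw [h.part, one_mul]
  have h2 : l true .u n * (l false .u n * l false .m n) = 0 := by
    rw [← mul_assoc, h.uu, add_mul, mul_assoc, h.zm, mul_zero, mul_assoc, h.um, mul_zero,
      add_zero]
  have h3 : l true .z n * (l false .u n * l false .m n) = 0 := by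
    rw [← mul_assoc, h.zu, zero_mul]
  have h4 : l true .m n * (l false .u n * l false .m n) = 0 := by
    rw [← mul_assoc, h.mu, zero_mul]
  rw [h1, add_mul, add_mul, mul_assoc, h3, mul_assoc, h2, mul_assoc, h4]
  simp

theorem IsLFam.ms_mul_us {l : Bool → Ltr → ℕ → T} (h : IsLFam l) (n : ℕ) :
    l true .m n * l true .u n = 0 := by
  have h1 : l true .m n * l true .u n = (l true .m n * l true .u n) * (l false .z n * l true .z n
      + l false .u n * l true .u n + l false .m n * l true .m n) := by rw [h.part, mul_one]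
  have h2 : (l true .m n * l true .u n) * (l false .u n * l true .u n) = 0 := by
    have h5 : (l true .m n * l true .u n) * (l false .u n * l true .u n)
        = (l true .m n * (l true .u n * l false .u n)) * l true .u n := by
      simp only [mul_assoc]
    rw [h5, h.uu, mul_add, ← mul_assoc, h.mz, zero_mul, ← mul_assoc, h.mu, zero_mul,
      add_zero, zero_mul]
  have h3 : (l true .m n * l true .u n) * (l false .z n * l true .z n) = 0 := by
    have h5 : (l true .m n * l true .u n) * (l false .z n * l true .z n)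
        = (l true .m n * (l true .u n * l false .z n)) * l true .z n := by
      simp only [mul_assoc]
    rw [h5, h.uz, mul_zero, zero_mul]
  have h4 : (l true .m n * l true .u n) * (l false .m n * l true .m n) = 0 := by
    have h5 : (l true .m n * l true .u n) * (l false .m n * l true .m n)
        = (l true .m n * (l true .u n * l false .m n)) * l true .m n := by
      simp only [mul_assoc]
    rw [h5, h.um, mul_zero, zero_mul]
  rw [h1, mul_add, mul_add, h3, h2, h4]
  simp

/-- induction principle -/
theorem Sys.induction (S : Sys T) {p : T → Prop} (hD : ∀ d ∈ S.D, p d)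
    (hl : ∀ st x n, p (S.l st x n)) (hadd : ∀ a b, p a → p b → p (a + b))
    (hmul : ∀ a b, p a → p b → p (a * b)) (r : T) : p r := by
  have hr : r ∈ Subring.closure ((S.D : Set T) ∪ {t | ∃ st x n, t = S.l st x n}) := by
    rw [S.gen]
    exact Subring.mem_top r
  induction hr using Subring.closure_induction with
  | mem x hx =>
    rcases hx with hx | ⟨st, y, n, rfl⟩
    · exact hD x hx
    · exact hl st y n
  | zero => exact hD 0 S.D.zero_mem
  | one => exact hD 1 S.D.one_mem
  | add x y _ _ hx hy => exact hadd x y hx hy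
  | neg x _ hx =>
    have h1 : -x = (-1) * x := by rw [neg_mul, one_mul]
    rw [h1]
    exact hmul _ _ (hD (-1) (S.D.neg_mem S.D.one_mem)) hx
  | mul x y _ _ hx hy => exact hmul x y hx hy

/-- a set which contains `1` and is stable under addition and left multiplication by `D` and by the
letters is everything -/
theorem Sys.left_induction (S : Sys T) {p : T → Prop} (h0 : p 0) (h1 : p 1)
    (hadd : ∀ a b, p a → p b → p (a + b)) (hD : ∀ d ∈ S.D, ∀ a, p a → p (d * a))
    (hl : ∀ st x n, ∀ a, p a → p (S.l st x n * a)) (r : T) : p r := by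
  have key : ∀ r : T, ∀ a, p a → p (r * a) := by
    intro r
    refine S.induction (p := fun r => ∀ a, p a → p (r * a)) ?_ ?_ ?_ ?_ r
    · exact fun d hd a ha => hD d hd a ha
    · exact fun st x n a ha => hl st x n a ha
    · intro x y hx hy a ha
      rw [add_mul]
      exact hadd _ _ (hx a ha) (hy a ha)
    · intro x y hx hy a ha
      rw [mul_assoc]
      exact hx _ (hy a ha)
  have := key r 1 h1
  rwa [mul_one] at this

theorem Sys.phi_z (S : Sys T) (r : T) : S.φ r * S.l false .z 0 = S.l false .z 0 * r := by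
  refine S.induction (p := fun r => S.φ r * S.l false .z 0 = S.l false .z 0 * r) ?_ ?_ ?_ ?_ r
  · intro d hd
    rw [S.φD d hd]
    exact S.comm d hd _ _ _
  · intro st x n
    rw [S.φl]
    have h := S.fam.b1 (n + 1) 0 st x .z (Nat.succ_pos n)
    have h2 : n + 1 + Ltr.z.ar - 1 = n := by simp [Ltr.ar]
    rwa [h2] at h
  · intro a b ha hb
    rw [map_add, add_mul, ha, hb, mul_add]
  · intro a b ha hb
    rw [map_mul, mul_assoc, hb, ← mul_assoc, ha, mul_assoc]

theorem Sys.phi_zs (S : Sys T) (r : T) : S.l true .z 0 * S.φ r = r * S.l true .z 0 := by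
  refine S.induction (p := fun r => S.l true .z 0 * S.φ r = r * S.l true .z 0) ?_ ?_ ?_ ?_ r
  · intro d hd
    rw [S.φD d hd]
    exact (S.comm d hd _ _ _).symm
  · intro st x n
    rw [S.φl]
    have h := S.fam.b2 (n + 1) 0 st x .z (Nat.succ_pos n)
    have h2 : n + 1 + Ltr.z.ar - 1 = n := by simp [Ltr.ar]
    rwa [h2] at h
  · intro a b ha hb
    rw [map_add, mul_add, ha, hb, add_mul]
  · intro a b ha hb
    rw [map_mul, ← mul_assoc, ha, mul_assoc, hb, mul_assoc]

theorem Sys.phi_u (S : Sys T) (r : T) : S.φ r * S.l false .u 0 = S.l false .u 0 * S.φ r := by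
  refine S.induction (p := fun r => S.φ r * S.l false .u 0 = S.l false .u 0 * S.φ r) ?_ ?_ ?_ ?_ r
  · intro d hd
    rw [S.φD d hd]
    exact S.comm d hd _ _ _
  · intro st x n
    rw [S.φl]
    have h := S.fam.b1 (n + 1) 0 st x .u (Nat.succ_pos n)
    have h2 : n + 1 + Ltr.u.ar - 1 = n + 1 := by simp [Ltr.ar]
    rwa [h2] at h
  · intro a b ha hb
    rw [map_add, add_mul, ha, hb, mul_add]
  · intro a b ha hb
    rw [map_mul, mul_assoc, hb, ← mul_assoc, ha, mul_assoc]

theorem Sys.phi_us (S : Sys T) (r : T) : S.l true .u 0 * S.φ r = S.φ r * S.l true .u 0 := by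
  refine S.induction (p := fun r => S.l true .u 0 * S.φ r = S.φ r * S.l true .u 0) ?_ ?_ ?_ ?_ r
  · intro d hd
    rw [S.φD d hd]
    exact (S.comm d hd _ _ _).symm
  · intro st x n
    rw [S.φl]
    have h := S.fam.b2 (n + 1) 0 st x .u (Nat.succ_pos n)
    have h2 : n + 1 + Ltr.u.ar - 1 = n + 1 := by simp [Ltr.ar]
    rwa [h2] at h
  · intro a b ha hb
    rw [map_add, mul_add, ha, hb, add_mul]
  · intro a b ha hb
    rw [map_mul, ← mul_assoc, ha, mul_assoc, hb, mul_assoc]

theorem Sys.phi_m (S : Sys T) (r : T) :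
    S.φ r * S.l false .m 0 = S.l false .m 0 * S.φ (S.φ r) := by
  refine S.induction
    (p := fun r => S.φ r * S.l false .m 0 = S.l false .m 0 * S.φ (S.φ r)) ?_ ?_ ?_ ?_ r
  · intro d hd
    rw [S.φD d hd, S.φD d hd]
    exact S.comm d hd _ _ _
  · intro st x n
    rw [S.φl, S.φl]
    have h := S.fam.b1 (n + 1) 0 st x .m (Nat.succ_pos n)
    have h2 : n + 1 + Ltr.m.ar - 1 = n + 1 + 1 := by simp [Ltr.ar]
    rwa [h2] at h
  · intro a b ha hb
    rw [map_add, map_add, add_mul, ha, hb, mul_add]
  · intro a b ha hb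
    rw [map_mul, map_mul, mul_assoc, hb, ← mul_assoc, ha, mul_assoc]

theorem Sys.phi_ms (S : Sys T) (r : T) :
    S.l true .m 0 * S.φ r = S.φ (S.φ r) * S.l true .m 0 := by
  refine S.induction
    (p := fun r => S.l true .m 0 * S.φ r = S.φ (S.φ r) * S.l true .m 0) ?_ ?_ ?_ ?_ r
  · intro d hd
    rw [S.φD d hd, S.φD d hd]
    exact (S.comm d hd _ _ _).symm
  · intro st x n
    rw [S.φl, S.φl]
    have h := S.fam.b2 (n + 1) 0 st x .m (Nat.succ_pos n)
    have h2 : n + 1 + Ltr.m.ar - 1 = n + 1 + 1 := by simp [Ltr.ar]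
    rwa [h2] at h
  · intro a b ha hb
    rw [map_add, map_add, mul_add, ha, hb, add_mul]
  · intro a b ha hb
    rw [map_mul, map_mul, ← mul_assoc, ha, mul_assoc, hb, mul_assoc]

end P193.L
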