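import Vale.Agent.Lib.P193.L.Defs

/-!
# P193 part L, module Rel: the infinitely many relations follow from the finitely many (L1)

Write `m = g false .m false`, `m* = g true .m false`, `x^(n) = lev g st x n` (`x` any letter, plain or
star). `C` = the elements commuting with `m m*`; `ψ(z) = m* z m`. For `z, z' ∈ C`: `ψ(z z') = ψ(z) ψ(z')`,
`z m = m ψ(z)`, `m* z = ψ(z) m*` (use `m* m = 1`), and `x^(n+1) = ψ(x^(n))` for `n ≥ 1` by definition.
By the relations `(b_{n,0})`, `n = 1,2,3`, for `y = m`: `x^(n) m = m x^(n+1)`, `m* x^(n) = x^(n+1) m*`, so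
`x^(1), x^(2), x^(3) ∈ C`. By `(b_{3,1})`, `(b_{4,1})` for `y = m`: `x^(4) = m*^(1) x^(3) m^(1) ∈ C`,
`x^(5) = m*^(1) x^(4) m^(1) ∈ C` (`m*^(1) m^(1) = 1` by `(a_1)`).

`(T_n)` := `(b_{n,1})`: `x^(n) y^(1) = y^(1) x^(n+a-1)`, `y*^(1) x^(n) = x^(n+a-1) y*^(1)`, `a = ar y`, `n ≥ 2`.
Induction, `n ≥ 4`: assume `T_j` for `2 ≤ j ≤ n` and `x^(j) ∈ C` for `1 ≤ j ≤ n+1`. Then
`x^(n+1) = ψ²(x^(n-1)) = ψ²(m*^(1) x^(n-2) m^(1)) = m*^(3) x^(n) m^(3)`, and
`x^(n+1) y^(1) = m*^(3) x^(n) m^(3) y^(1) = m*^(3) x^(n) y^(1) m^(2+a) = m*^(3) y^(1) x^(n+a-1) m^(2+a)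
= y^(1) m*^(2+a) x^(n+a-1) m^(2+a) = y^(1) m*^(2+a) m^(2+a) x^(n+a) = y^(1) x^(n+a)`
(used: `T_3` for the letters `m`, `m*`, `T_n`, and `ψ^(a+1)` applied to `T_{n-2}` for `y = m`:
`x^(n-2) m^(1) = m^(1) x^(n-1)` gives `x^(n+a-1) m^(2+a) = m^(2+a) x^(n+a)`). Similarly the star half (it is
the same statement in the opposite ring: `lev` and the relations are stable under the
anti-automorphism exchanging plain and star). So `T_{n+1}`, and `x^(n+2) = m*^(1) x^(n+1) m^(1) ∈ C`.

`(b_{n+1,0})` for `n ≥ 3`, `y ∈ {z, u}`: `x^(n+1) = ψ(x^(n)) = ψ(m*^(1) x^(n-1) m^(1)) = m*^(2) x^(n) m^(2)`, then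
as above (with `(b_{2,0})`, `(b_{n,0})`, `ψ^a(T_{n-1})`). For `y = m` it is `x^(n+1) ∈ C`.
`(b_{n,k}) = ψ^(k-1)(T_{n-k+1})` for `k ≥ 1` and `(a_{n+1}) = ψ(a_n)` for `n ≥ 1`
(`ψ(1) = m* m = 1`).
-/

namespace P193.L

universe u
variable {S : Type u} [Ring S]

/-- the opposite family (exchanging plain and star) -/
def gop (g : Bool → Ltr → Bool → S) : Bool → Ltr → Bool → Sᵐᵒᵖ :=
  fun st x i => MulOpposite.op (g (!st) x i)

theorem lev_gop (g : Bool → Ltr → Bool → S) (st : Bool) (x : Ltr) (n : ℕ) :
    lev (gop g) st x n = MulOpposite.op (lev g (!st) x n) := by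
  induction n using Nat.strong_induction_on with
  | _ n ih =>
    match n, ih with
    | 0, _ => rfl
    | 1, _ => rfl
    | (n + 2), ih =>
      rw [lev, lev, ih (n + 1) (by omega)]
      simp only [gop, Bool.not_true, Bool.not_false, ← MulOpposite.op_mul, mul_assoc]

theorem LRel.a {g : Bool → Ltr → Bool → S} (h : LRel g) {n : ℕ} (hn : n = 0 ∨ n = 1) :
    ∀ r ∈ aRel g n, r = 0 := by
  intro r hr
  apply h
  unfold relList
  rcases hn with rfl | rfl
  · exact List.mem_append.2 (Or.inl (List.mem_append.2 (Or.inl hr)))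
  · exact List.mem_append.2 (Or.inl (List.mem_append.2 (Or.inr hr)))

theorem LRel.b {g : Bool → Ltr → Bool → S} (h : LRel g) {n k : ℕ}
    (hk : (n, k) ∈ ([(1, 0), (2, 0), (3, 0), (2, 1), (3, 1), (4, 1)] : List (ℕ × ℕ)))
    (st : Bool) (x y : Ltr) : ∀ r ∈ bRel g n k st x y, r = 0 := by
  intro r hr
  apply h
  unfold relList
  refine List.mem_append.2 (Or.inr ?_)
  refine List.mem_flatMap.2 ⟨(n, k), hk, List.mem_flatMap.2 ⟨st, by cases st <;> simp,
    List.mem_flatMap.2 ⟨x, by cases x <;> simp, List.mem_flatMap.2 ⟨y, by cases y <;> simp, hr⟩⟩⟩⟩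

theorem LRel.mk' {g : Bool → Ltr → Bool → S}
    (ha : ∀ n, (n = 0 ∨ n = 1) → ∀ r ∈ aRel g n, r = 0)
    (hb : ∀ n k, (n, k) ∈ ([(1, 0), (2, 0), (3, 0), (2, 1), (3, 1), (4, 1)] : List (ℕ × ℕ)) →
      ∀ st x y, ∀ r ∈ bRel g n k st x y, r = 0) : LRel g := by
  intro r hr
  unfold relList at hr
  rcases List.mem_append.1 hr with hr | hr
  · rcases List.mem_append.1 hr with hr | hr
    · exact ha 0 (Or.inl rfl) r hr
    · exact ha 1 (Or.inr rfl) r hr
  · obtain ⟨nk, hnk, hr⟩ := List.mem_flatMap.1 hr
    obtain ⟨st, -, hr⟩ := List.mem_flatMap.1 hr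
    obtain ⟨x, -, hr⟩ := List.mem_flatMap.1 hr
    obtain ⟨y, -, hr⟩ := List.mem_flatMap.1 hr
    exact hb nk.1 nk.2 hnk st x y r hr

/-- the relations `(a_n)` for a family -/
structure AFam (l : Bool → Ltr → ℕ → S) (n : ℕ) : Prop where
  zz : l true .z n * l false .z n = 1
  mm : l true .m n * l false .m n = 1
  zu : l true .z n * l false .u n = 0
  zm : l true .z n * l false .m n = 0
  uz : l true .u n * l false .z n = 0
  um : l true .u n * l false .m n = 0
  mz : l true .m n * l false .z n = 0
  mu : l true .m n * l false .u n = 0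
  part : l false .z n * l true .z n + l false .u n * l true .u n
    + l false .m n * l true .m n = 1
  uu : l true .u n * l false .u n
    = l false .z n * l true .z n + l false .u n * l true .u n

theorem LRel.aFam {g : Bool → Ltr → Bool → S} (h : LRel g) {n : ℕ} (hn : n = 0 ∨ n = 1) :
    AFam (lev g) n := by
  have h1 := h.a hn
  simp only [aRel, List.mem_cons, List.not_mem_nil, or_false, forall_eq_or_imp, forall_eq] at h1
  obtain ⟨c1, c2, c3, c4, c5, c6, c7, c8, c9, c10⟩ := h1
  exact ⟨sub_eq_zero.1 c1, sub_eq_zero.1 c2, c3, c4, c5, c6, c7, c8, sub_eq_zero.1 c9,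
    sub_eq_zero.1 c10⟩

theorem AFam.aRel {g : Bool → Ltr → Bool → S} {n : ℕ} (h : AFam (lev g) n) :
    ∀ r ∈ L.aRel g n, r = 0 := by
  simp only [L.aRel, List.mem_cons, List.not_mem_nil, or_false, forall_eq_or_imp, forall_eq]
  exact ⟨sub_eq_zero.2 h.zz, sub_eq_zero.2 h.mm, h.zu, h.zm, h.uz, h.um, h.mz, h.mu,
    sub_eq_zero.2 h.part, sub_eq_zero.2 h.uu⟩

theorem AFam.op {g : Bool → Ltr → Bool → S} {n : ℕ} (h : AFam (lev g) n) :
    AFam (lev (gop g)) n := by
  constructor <;> simp only [lev_gop, Bool.not_true, Bool.not_false, ← MulOpposite.op_mul,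
    ← MulOpposite.op_add]
  · rw [h.zz]; rfl
  · rw [h.mm]; rfl
  · rw [h.uz]; rfl
  · rw [h.mz]; rfl
  · rw [h.zu]; rfl
  · rw [h.mu]; rfl
  · rw [h.zm]; rfl
  · rw [h.um]; rfl
  · rw [h.part]; rfl
  · rw [h.uu]

theorem LRel.b1 {g : Bool → Ltr → Bool → S} (h : LRel g) {n k : ℕ}
    (hk : (n, k) ∈ ([(1, 0), (2, 0), (3, 0), (2, 1), (3, 1), (4, 1)] : List (ℕ × ℕ)))
    (st : Bool) (x y : Ltr) :
    lev g st x n * lev g false y k = lev g false y k * lev g st x (n + y.ar - 1) :=
  sub_eq_zero.1 (h.b hk st x y _ (by simp [bRel]))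

theorem LRel.b2 {g : Bool → Ltr → Bool → S} (h : LRel g) {n k : ℕ}
    (hk : (n, k) ∈ ([(1, 0), (2, 0), (3, 0), (2, 1), (3, 1), (4, 1)] : List (ℕ × ℕ)))
    (st : Bool) (x y : Ltr) :
    lev g true y k * lev g st x n = lev g st x (n + y.ar - 1) * lev g true y k :=
  sub_eq_zero.1 (h.b hk st x y _ (by simp [bRel]))

theorem lrel_gop {g : Bool → Ltr → Bool → S} (h : LRel g) : LRel (gop g) := by
  refine LRel.mk' (fun n hn => (h.aFam hn).op.aRel) fun n k hk st x y => ?_
  simp only [bRel, List.mem_cons, List.not_mem_nil, or_false, forall_eq_or_imp, forall_eq,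
    lev_gop, Bool.not_true, Bool.not_false, ← MulOpposite.op_mul]
  rw [h.b2 hk (!st) x y, h.b1 hk (!st) x y]
  simp

section psi

variable {g : Bool → Ltr → Bool → S}

/-- commutes with `m m*` -/
def Ct (g : Bool → Ltr → Bool → S) (t : S) : Prop :=
  t * (g false .m false * g true .m false) = g false .m false * g true .m false * t

/-- `ψ(t) = m* t m` -/
def psi (g : Bool → Ltr → Bool → S) (t : S) : S := g true .m false * t * g false .m false

theorem Ct.mul {a b : S} (ha : Ct g a) (hb : Ct g b) : Ct g (a * b) := by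
  unfold Ct at *
  rw [mul_assoc, hb, ← mul_assoc, ha, mul_assoc]

theorem psi_mul (hm : g true .m false * g false .m false = 1) {a b : S} (ha : Ct g a) :
    psi g (a * b) = psi g a * psi g b := by
  unfold psi Ct at *
  calc g true .m false * (a * b) * g false .m false
      = (g true .m false * g false .m false) * (g true .m false * a * b * g false .m false) := by
        rw [hm, one_mul]; simp only [mul_assoc]
    _ = g true .m false * (g false .m false * g true .m false * a) * b * g false .m false := by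
        simp only [mul_assoc]
    _ = _ := by rw [← ha]; simp only [mul_assoc]

theorem psi_one (hm : g true .m false * g false .m false = 1) : psi g 1 = 1 := by
  unfold psi
  rw [mul_one, hm]

theorem lev_psi (st : Bool) (x : Ltr) {n : ℕ} (hn : 1 ≤ n) :
    lev g st x (n + 1) = psi g (lev g st x n) := by
  obtain ⟨k, rfl⟩ : ∃ k, n = k + 1 := ⟨n - 1, by omega⟩
  rfl

theorem Ct.m_mul (hm : g true .m false * g false .m false = 1) {t : S} (h : Ct g t) :
    t * g false .m false = g false .m false * psi g t := by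
  unfold psi Ct at *
  calc t * g false .m false = t * g false .m false * (g true .m false * g false .m false) := by
        rw [hm, mul_one]
    _ = t * (g false .m false * g true .m false) * g false .m false := by simp only [mul_assoc]
    _ = _ := by rw [h]; simp only [mul_assoc]

/-- shift a relation by `ψ^s` -/
theorem shift_rel (hm : g true .m false * g false .m false = 1) {st st' : Bool} {x y : Ltr}
    {a b c : ℕ} (ha : 1 ≤ a) (hb : 1 ≤ b) (hc : 1 ≤ c)
    (h : lev g st x a * lev g st' y b = lev g st' y b * lev g st x c) (s : ℕ)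
    (hCa : ∀ i < s, Ct g (lev g st x (a + i))) (hCb : ∀ i < s, Ct g (lev g st' y (b + i))) :
    lev g st x (a + s) * lev g st' y (b + s) = lev g st' y (b + s) * lev g st x (c + s) := by
  induction s with
  | zero => exact h
  | succ s ih =>
    have h1 := ih (fun i hi => hCa i (by omega)) (fun i hi => hCb i (by omega))
    rw [← add_assoc, ← add_assoc, ← add_assoc, lev_psi st x (by omega), lev_psi st' y (by omega),
      lev_psi st x (by omega : 1 ≤ c + s), ← psi_mul hm (hCa s (by omega)), h1,
      psi_mul hm (hCb s (by omega))]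

theorem lev_mm (h : LRel g) {k : ℕ} (hk : 1 ≤ k)
    (hC : ∀ j, 1 ≤ j → j < k → Ct g (lev g true .m j)) :
    lev g true .m k * lev g false .m k = 1 := by
  have hm : g true .m false * g false .m false = 1 := (h.aFam (Or.inl rfl)).mm
  induction k, hk using Nat.le_induction with
  | base => exact (h.aFam (Or.inr rfl)).mm
  | succ k hk ih =>
    rw [lev_psi _ _ hk, lev_psi _ _ hk, ← psi_mul hm (hC k hk (by omega)),
      ih fun j h1 h2 => hC j h1 (by omega), psi_one hm]

theorem Ct_base (h : LRel g) {n : ℕ} (hn : (n, 0) ∈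
    ([(1, 0), (2, 0), (3, 0), (2, 1), (3, 1), (4, 1)] : List (ℕ × ℕ))) (st : Bool) (x : Ltr) :
    Ct g (lev g st x n) := by
  have h1 := h.b1 hn st x .m
  have h2 := h.b2 hn st x .m
  unfold Ct
  change lev g st x n * g false .m false = g false .m false * lev g st x (n + 2 - 1) at h1
  change g true .m false * lev g st x n = lev g st x (n + 2 - 1) * g true .m false at h2
  rw [← mul_assoc, h1, mul_assoc, ← h2, mul_assoc]

/-- `(T_n)` -/
def Tn (g : Bool → Ltr → Bool → S) (n : ℕ) : Prop := ∀ st x y,
  lev g st x n * lev g false y 1 = lev g false y 1 * lev g st x (n + y.ar - 1)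

/-- `x^(n) ∈ C` -/
def Cn (g : Bool → Ltr → Bool → S) (n : ℕ) : Prop := ∀ st x, Ct g (lev g st x n)

theorem ar_le (y : Ltr) : y.ar ≤ 2 := by cases y <;> simp [Ltr.ar]

/-- `x^(n) m^(k) = m^(k) x^(n+1)` -/
theorem lev_m (h : LRel g) {j s : ℕ} (hj : 2 ≤ j) (hT : Tn g j)
    (hC : ∀ i, 1 ≤ i → i < j + s → Cn g i) (st : Bool) (x : Ltr) :
    lev g st x (j + s) * lev g false .m (1 + s) = lev g false .m (1 + s) * lev g st x (j + s + 1)
    := by
  have hm : g true .m false * g false .m false = 1 := (h.aFam (Or.inl rfl)).mm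
  have h1 := shift_rel hm (by omega) (le_refl 1) (by omega : 1 ≤ j + 1) (hT st x .m) s
    (fun i hi => hC _ (by omega) (by omega) st x) (fun i hi => hC _ (by omega) (by omega) false .m)
  rw [h1]
  congr 2
  omega

theorem lev_conj (h : LRel g) {j s : ℕ} (hj : 2 ≤ j) (hT : Tn g j)
    (hC : ∀ i, 1 ≤ i → i < j + s → Cn g i) (st : Bool) (x : Ltr) :
    lev g st x (j + s + 1)
      = lev g true .m (1 + s) * lev g st x (j + s) * lev g false .m (1 + s) := by
  rw [mul_assoc, lev_m h hj hT hC, ← mul_assoc,
    lev_mm h (by omega) (fun i h1 h2 => hC i h1 (by omega) true .m), one_mul]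

theorem Cn_step (h : LRel g) {n : ℕ} (hn : 2 ≤ n) (hT : Tn g n)
    (hC : ∀ i, 1 ≤ i → i ≤ n → Cn g i) : Cn g (n + 1) := by
  intro st x
  have h1 := lev_conj h (s := 0) hn hT (fun i h1 h2 => hC i h1 (by omega)) st x
  simp only [add_zero] at h1
  rw [h1]
  exact ((hC 1 (le_refl 1) (by omega) true .m).mul (hC n (by omega) le_rfl st x)).mul
    (hC 1 (le_refl 1) (by omega) false .m)

theorem TC (h : LRel g) (n : ℕ) (hn : 4 ≤ n) :
    (∀ j, 2 ≤ j → j ≤ n → Tn g j) ∧ ∀ j, 1 ≤ j → j ≤ n + 1 → Cn g j := by
  induction n, hn using Nat.le_induction with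
  | base =>
    have t2 : Tn g 2 := fun st x y => h.b1 (by simp) st x y
    have t3 : Tn g 3 := fun st x y => h.b1 (by simp) st x y
    have t4 : Tn g 4 := fun st x y => h.b1 (by simp) st x y
    have c1 : Cn g 1 := fun st x => Ct_base h (by simp) st x
    have c2 : Cn g 2 := fun st x => Ct_base h (by simp) st x
    have c3 : Cn g 3 := fun st x => Ct_base h (by simp) st x
    have c4 : Cn g 4 := Cn_step h (by omega) t3 fun i h1 h2 => by
      obtain rfl | rfl | rfl : i = 1 ∨ i = 2 ∨ i = 3 := by omega
      all_goals assumption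
    have c5 : Cn g 5 := Cn_step h (by omega) t4 fun i h1 h2 => by
      obtain rfl | rfl | rfl | rfl : i = 1 ∨ i = 2 ∨ i = 3 ∨ i = 4 := by omega
      all_goals assumption
    refine ⟨fun j h1 h2 => ?_, fun j h1 h2 => ?_⟩
    · obtain rfl | rfl | rfl : j = 2 ∨ j = 3 ∨ j = 4 := by omega
      all_goals assumption
    · obtain rfl | rfl | rfl | rfl | rfl : j = 1 ∨ j = 2 ∨ j = 3 ∨ j = 4 ∨ j = 5 := by omega
      all_goals assumption
  | succ n hn ih =>
    obtain ⟨hT, hC⟩ := ih
    have hTn : Tn g (n + 1) := by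
      intro st x y
      have hay := ar_le y
      -- x^(n+1) = m*^(3) x^(n) m^(3)
      have e1 := lev_conj h (j := n - 2) (s := 2) (by omega) (hT _ (by omega) (by omega))
        (fun i h1 h2 => hC i h1 (by omega)) st x
      have e2 : n - 2 + 2 + 1 = n + 1 := by omega
      have e3 : n - 2 + 2 = n := by omega
      rw [e2, e3] at e1
      have t3 := hT 3 (by omega) (by omega)
      have tn := hT n (by omega) le_rfl
      have e4 := t3 false .m y
      have e5 := t3 true .m y
      have e6 := tn st x y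
      have e7 := lev_m h (j := n - 2) (s := 1 + y.ar) (by omega) (hT _ (by omega) (by omega))
        (fun i h1 h2 => hC i h1 (by omega)) st x
      have e8 : n - 2 + (1 + y.ar) = n + y.ar - 1 := by omega
      have e9 : 1 + (1 + y.ar) = 3 + y.ar - 1 := by omega
      have e10 : n + y.ar - 1 + 1 = n + y.ar := by omega
      have e11 : n + 1 + y.ar - 1 = n + y.ar := by omega
      rw [e8, e9, e10] at e7
      rw [e11]
      have e12 := lev_mm h (k := 3 + y.ar - 1) (by omega)
        (fun i h1 h2 => hC i h1 (by omega) true .m)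
      change lev g st x (n + 1) = lev g true .m 3 * lev g st x n * lev g false .m 3 at e1
      calc lev g st x (n + 1) * lev g false y 1
          = lev g true .m 3 * lev g st x n * (lev g false .m 3 * lev g false y 1) := by
            rw [e1, mul_assoc]
        _ = lev g true .m 3 * (lev g st x n * lev g false y 1) * lev g false .m (3 + y.ar - 1) := by
            rw [e4]; simp only [mul_assoc]
        _ = (lev g true .m 3 * lev g false y 1) * lev g st x (n + y.ar - 1)
              * lev g false .m (3 + y.ar - 1) := by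
            rw [e6]; simp only [mul_assoc]
        _ = lev g false y 1 * lev g true .m (3 + y.ar - 1) * (lev g st x (n + y.ar - 1)
              * lev g false .m (3 + y.ar - 1)) := by
            rw [e5]; simp only [mul_assoc]
        _ = lev g false y 1 * (lev g true .m (3 + y.ar - 1) * lev g false .m (3 + y.ar - 1))
              * lev g st x (n + y.ar) := by
            rw [e7]; simp only [mul_assoc]
        _ = lev g false y 1 * lev g st x (n + y.ar) := by
            rw [e12, mul_one]
    refine ⟨fun j h1 h2 => ?_, fun j h1 h2 => ?_⟩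
    · rcases Nat.lt_or_ge j (n + 1) with h3 | h3
      · exact hT j h1 (by omega)
      · obtain rfl : j = n + 1 := by omega
        exact hTn
    · rcases Nat.lt_or_ge j (n + 2) with h3 | h3
      · exact hC j h1 (by omega)
      · obtain rfl : j = n + 1 + 1 := by omega
        exact Cn_step h (by omega) hTn fun i h1 h2 => hC i h1 (by omega)

theorem Tn_all (h : LRel g) {n : ℕ} (hn : 2 ≤ n) : Tn g n :=
  (TC h (n + 4) (by omega)).1 n hn (by omega)

theorem Cn_all (h : LRel g) {n : ℕ} (hn : 1 ≤ n) : Cn g n :=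
  (TC h (n + 4) (by omega)).2 n hn (by omega)

/-- `(b_{n,0})` -/
theorem lev_b0 (h : LRel g) (n : ℕ) (hn : 1 ≤ n) (st : Bool) (x y : Ltr) :
    lev g st x n * lev g false y 0 = lev g false y 0 * lev g st x (n + y.ar - 1) := by
  have hm : g true .m false * g false .m false = 1 := (h.aFam (Or.inl rfl)).mm
  by_cases hy : y = .m
  · subst hy
    have h1 := (Cn_all h hn st x).m_mul hm
    rw [← lev_psi st x hn] at h1
    exact h1
  · have hay : y.ar ≤ 1 := by cases y <;> simp_all [Ltr.ar]
    induction n, hn using Nat.le_induction with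
    | base => exact h.b1 (by simp) st x y
    | succ n hn ih =>
      by_cases h4 : n + 1 ≤ 3
      · obtain rfl | rfl : n = 1 ∨ n = 2 := by omega
        · exact h.b1 (by simp) st x y
        · exact h.b1 (by simp) st x y
      · have e1 := lev_conj h (j := n - 1) (s := 1) (by omega) (Tn_all h (by omega))
          (fun i h1 h2 => Cn_all h h1) st x
        have e2 : n - 1 + 1 = n := by omega
        rw [e2] at e1
        have e4 := h.b1 (n := 2) (k := 0) (by simp) false .m y
        have e5 := h.b1 (n := 2) (k := 0) (by simp) true .m y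
        have e7 := lev_m h (j := n - 1) (s := y.ar) (by omega) (Tn_all h (by omega))
          (fun i h1 h2 => Cn_all h h1) st x
        have e8 : n - 1 + y.ar = n + y.ar - 1 := by omega
        have e9 : 1 + y.ar = 2 + y.ar - 1 := by omega
        have e10 : n + y.ar - 1 + 1 = n + y.ar := by omega
        have e11 : n + 1 + y.ar - 1 = n + y.ar := by omega
        rw [e8, e9, e10] at e7
        rw [e11]
        have e12 := lev_mm h (k := 2 + y.ar - 1) (by omega)
          (fun i h1 h2 => Cn_all h h1 true .m)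
        change lev g st x (n + 1) = lev g true .m 2 * lev g st x n * lev g false .m 2 at e1
        calc lev g st x (n + 1) * lev g false y 0
            = lev g true .m 2 * lev g st x n * (lev g false .m 2 * lev g false y 0) := by
              rw [e1, mul_assoc]
          _ = lev g true .m 2 * (lev g st x n * lev g false y 0)
                * lev g false .m (2 + y.ar - 1) := by
              rw [e4]; simp only [mul_assoc]
          _ = (lev g true .m 2 * lev g false y 0) * lev g st x (n + y.ar - 1)
                * lev g false .m (2 + y.ar - 1) := by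
              rw [ih]; simp only [mul_assoc]
          _ = lev g false y 0 * lev g true .m (2 + y.ar - 1) * (lev g st x (n + y.ar - 1)
                * lev g false .m (2 + y.ar - 1)) := by
              rw [e5]; simp only [mul_assoc]
          _ = lev g false y 0 * (lev g true .m (2 + y.ar - 1) * lev g false .m (2 + y.ar - 1))
                * lev g st x (n + y.ar) := by
              rw [e7]; simp only [mul_assoc]
          _ = lev g false y 0 * lev g st x (n + y.ar) := by
              rw [e12, mul_one]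

end psi

/-- half of the relations `(b_{n,k})` -/
theorem lev_b1 {g : Bool → Ltr → Bool → S} (h : LRel g) (n k : ℕ) (st : Bool) (x y : Ltr)
    (hk : k < n) : lev g st x n * lev g false y k = lev g false y k * lev g st x (n + y.ar - 1) := by
  have hm : g true .m false * g false .m false = 1 := (h.aFam (Or.inl rfl)).mm
  rcases Nat.eq_zero_or_pos k with rfl | hk0
  · exact lev_b0 h n hk st x y
  · obtain ⟨s, rfl⟩ : ∃ s, k = 1 + s := ⟨k - 1, by omega⟩
    obtain ⟨j, rfl⟩ : ∃ j, n = j + s := ⟨n - s, by omega⟩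
    have h1 := shift_rel hm (by omega) (le_refl 1) (by omega : 1 ≤ j + y.ar - 1)
      (Tn_all h (by omega : 2 ≤ j) st x y) s (fun i hi => Cn_all h (by omega) st x)
      (fun i hi => Cn_all h (by omega) false y)
    rw [h1]
    congr 2
    omega

theorem aFam_lev {g : Bool → Ltr → Bool → S} (h : LRel g) (n : ℕ) : AFam (lev g) n := by
  have hm : g true .m false * g false .m false = 1 := (h.aFam (Or.inl rfl)).mm
  rcases Nat.eq_zero_or_pos n with rfl | hn
  · exact h.aFam (Or.inl rfl)
  · induction n, hn using Nat.le_induction with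
    | base => exact h.aFam (Or.inr rfl)
    | succ n hn ih =>
      have hn' : 1 ≤ n := hn
      have hC := fun st x => Cn_all h hn' st x
      have key : ∀ (st st' : Bool) (x y : Ltr), lev g st x (n + 1) * lev g st' y (n + 1)
          = psi g (lev g st x n * lev g st' y n) := by
        intro st st' x y
        rw [lev_psi _ _ hn', lev_psi _ _ hn', psi_mul hm (hC st x)]
      have hadd : ∀ a b : S, psi g a + psi g b = psi g (a + b) := by
        intro a b
        unfold psi
        rw [mul_add, add_mul]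
      have h0 : psi g 0 = 0 := by
        unfold psi
        rw [mul_zero, zero_mul]
      constructor <;> simp only [key, hadd]
      · rw [ih.zz, psi_one hm]
      · rw [ih.mm, psi_one hm]
      · rw [ih.zu, h0]
      · rw [ih.zm, h0]
      · rw [ih.uz, h0]
      · rw [ih.um, h0]
      · rw [ih.mz, h0]
      · rw [ih.mu, h0]
      · rw [ih.part, psi_one hm]
      · rw [ih.uu]

theorem isLFam_lev {g : Bool → Ltr → Bool → S} (h : LRel g) : IsLFam (lev g) where
  zz n := (aFam_lev h n).zz
  mm n := (aFam_lev h n).mm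
  zu n := (aFam_lev h n).zu
  zm n := (aFam_lev h n).zm
  uz n := (aFam_lev h n).uz
  um n := (aFam_lev h n).um
  mz n := (aFam_lev h n).mz
  mu n := (aFam_lev h n).mu
  part n := (aFam_lev h n).part
  uu n := (aFam_lev h n).uu
  b1 n k st x y hk := lev_b1 h n k st x y hk
  b2 n k st x y hk := by
    have h1 := lev_b1 (lrel_gop h) n k (!st) x y hk
    simp only [lev_gop, Bool.not_not, Bool.not_false, ← MulOpposite.op_mul] at h1
    exact MulOpposite.op_injective h1

end P193.L
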