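import Vale.Agent.Lib.P193.L.Phi
import Vale.Agent.Lib.P193.L.NF
import Vale.Agent.Lib.P193.L.StarW

/-!
# P193 part L, module Seq: closed sequences (L6)

`phi_item`: `φ(r) S_g = S_g r` for the word `g` of an item: `phi_hh` for numbers; for a pair `m g g'`:
`φ(r) m S_g S_g' = m φ²(r) S_g S_g' = m S_g φ(r) S_g' = m S_g S_g' r`.
`letter_seq`: `x^(n) = φ^n(x^(0))` passes over the first `n` items of `r` (`n + 2 ≤ r.length`; induction on `n` and
`r`: `φ(x^(n)) S_g = S_g x^(n)`), and then for `n = 0`, `r = g :: g' :: r'`:
`z`: a new item `num 0`; `u`: `num k ↦ num (k+1)`, pair: `u m = 0`; `m`: `pair g g' :: r'`;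
`z*`: `num 0` is removed, `num (k+1)`: `z* u = 0`, pair: `z* m = 0`; `u*`: `num 0`: `u* z = 0`,
`num (k+1) ↦ num k` (`u* u S_g = (z z* + u u*) S_g = (1 - m m*) S_g`, `m* S_g = 0` for `g` the word of a number), pair: `0`;
`m*`: number: `0`, `pair a b ↦ a :: b`.
`elt_seq`: for every `t ∈ T`: `t S_r = Σ S_{r_i} d_i` with `r_i` of length `≥ |r| - K`, if `|r| ≥ K`: by
`Sys.induction`: `d ∈ D`: `d S_r = S_r d`; letter of level `n`: `K = n + 2`; sums: max of the `K`
(concatenate the lists, weaken); products: `t t' S_r = Σ t S_{r_i} d_i`, `K + K'`.
-/

namespace P193.L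

universe u
variable {T : Type u} [Ring T]

private theorem W_cons0 (l : Bool → Ltr → ℕ → T) (x : Ltr) (w : List Ltr) :
    W l (x :: w) = l false x 0 * W l w := by
  simp [W]

private theorem seqW_cons (g : Item) (r : List Item) : seqW (g :: r) = g.word ++ seqW r := by
  simp [seqW]

private theorem W_seqW_cons (l : Bool → Ltr → ℕ → T) (g : Item) (r : List Item) :
    W l (seqW (g :: r)) = W l g.word * W l (seqW r) := by
  rw [seqW_cons, W_append]

private theorem hh_succ (k : ℕ) : hh (k + 1) = Ltr.u :: hh k := by
  simp [hh, List.replicate_succ]

private theorem hh_zero : hh 0 = [Ltr.z] := by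
  simp [hh]

private theorem word_num (k : ℕ) : (Item.num k).word = hh k := by
  simp [Item.word]

private theorem word_pair (a b : Item) : (Item.pair a b).word = Ltr.m :: (a.word ++ b.word) := by
  simp [Item.word]

theorem phi_item (S : Sys T) (g : Item) (r : T) :
    S.φ r * W S.l g.word = W S.l g.word * r := by
  induction g generalizing r with
  | num k => rw [word_num]; exact phi_hh S k r
  | pair a b iha ihb =>
    rw [word_pair, W_cons0, W_append, ← mul_assoc, S.phi_m, mul_assoc, ← mul_assoc _ (W S.l a.word),
      iha, mul_assoc (W S.l a.word), ihb]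
    simp only [mul_assoc]

private theorem ms_hh {l : Bool → Ltr → ℕ → T} (h : IsLFam l) (k : ℕ) :
    l true .m 0 * W l (hh k) = 0 := by
  cases k with
  | zero => rw [hh_zero, W_cons0, ← mul_assoc, h.mz, zero_mul]
  | succ k => rw [hh_succ, W_cons0, ← mul_assoc, h.mu, zero_mul]

private theorem us_hh_succ {l : Bool → Ltr → ℕ → T} (h : IsLFam l) (k : ℕ) :
    l true .u 0 * W l (hh (k + 1)) = W l (hh k) := by
  have h1 : l false .z 0 * l true .z 0 + l false .u 0 * l true .u 0
      = 1 - l false .m 0 * l true .m 0 := by
    rw [eq_sub_iff_add_eq]
    exact h.part 0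
  rw [hh_succ, W_cons0, ← mul_assoc, h.uu, h1, sub_mul, one_mul, mul_assoc, ms_hh h, mul_zero,
    sub_zero]

theorem letter_seq (S : Sys T) (st : Bool) (x : Ltr) (n : ℕ) (r : List Item)
    (hr : n + 2 ≤ r.length) : S.l st x n * W S.l (seqW r) = 0 ∨
    ∃ r' : List Item, r.length ≤ r'.length + 1 ∧
      S.l st x n * W S.l (seqW r) = W S.l (seqW r') := by
  induction n generalizing r with
  | succ n ih =>
    cases r with
    | nil => simp at hr
    | cons g r =>
      have hr' : n + 2 ≤ r.length := by
        simp only [List.length_cons] at hr
        omega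
      have key : S.l st x (n + 1) * W S.l (seqW (g :: r))
          = W S.l g.word * (S.l st x n * W S.l (seqW r)) := by
        rw [← S.φl, W_seqW_cons, ← mul_assoc, phi_item, mul_assoc]
      rcases ih r hr' with h0 | ⟨r', h1, h2⟩
      · left
        rw [key, h0, mul_zero]
      · right
        refine ⟨g :: r', ?_, ?_⟩
        · simp only [List.length_cons]
          omega
        · rw [key, h2, W_seqW_cons]
  | zero =>
    cases r with
    | nil => simp at hr
    | cons g r =>
      cases r with
      | nil => simp at hr
      | cons g' r =>
        have H := S.fam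
        cases st with
        | false =>
          cases x with
          | z =>
            right
            refine ⟨Item.num 0 :: g :: g' :: r, by simp only [List.length_cons]; omega, ?_⟩
            rw [W_seqW_cons S.l (Item.num 0), word_num, hh_zero, W_cons0]
            simp [W]
          | u =>
            cases g with
            | num k =>
              right
              refine ⟨Item.num (k + 1) :: g' :: r, by simp only [List.length_cons]; omega, ?_⟩
              rw [W_seqW_cons, W_seqW_cons S.l (Item.num (k + 1)), word_num, word_num, hh_succ,
                W_cons0, mul_assoc]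
            | pair a b =>
              left
              rw [W_seqW_cons, word_pair, W_cons0, ← mul_assoc, ← mul_assoc, H.u_mul_m, zero_mul,
                zero_mul]
          | m =>
            right
            refine ⟨Item.pair g g' :: r, by simp only [List.length_cons]; omega, ?_⟩
            rw [W_seqW_cons, W_seqW_cons, W_seqW_cons S.l (Item.pair g g'), word_pair, W_cons0,
              W_append]
            simp only [mul_assoc]
        | true =>
          cases x with
          | z =>
            cases g with
            | num k =>
              cases k with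
              | zero =>
                right
                refine ⟨g' :: r, by simp only [List.length_cons]; omega, ?_⟩
                rw [W_seqW_cons, word_num, hh_zero, W_cons0]
                have : W S.l [] = 1 := by simp [W]
                rw [this, mul_one, ← mul_assoc, H.zz, one_mul]
              | succ k =>
                left
                rw [W_seqW_cons, word_num, hh_succ, W_cons0, ← mul_assoc, ← mul_assoc, H.zu,
                  zero_mul, zero_mul]
            | pair a b =>
              left
              rw [W_seqW_cons, word_pair, W_cons0, ← mul_assoc, ← mul_assoc, H.zm, zero_mul,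
                zero_mul]
          | u =>
            cases g with
            | num k =>
              cases k with
              | zero =>
                left
                rw [W_seqW_cons, word_num, hh_zero, W_cons0, ← mul_assoc, ← mul_assoc, H.uz,
                  zero_mul, zero_mul]
              | succ k =>
                right
                refine ⟨Item.num k :: g' :: r, by simp only [List.length_cons]; omega, ?_⟩
                rw [W_seqW_cons, W_seqW_cons S.l (Item.num k), word_num, word_num, ← mul_assoc,
                  us_hh_succ H]
            | pair a b =>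
              left
              rw [W_seqW_cons, word_pair, W_cons0, ← mul_assoc, ← mul_assoc, H.um, zero_mul,
                zero_mul]
          | m =>
            cases g with
            | num k =>
              left
              rw [W_seqW_cons, word_num, ← mul_assoc, ms_hh H, zero_mul]
            | pair a b =>
              right
              refine ⟨a :: b :: g' :: r, by simp only [List.length_cons]; omega, ?_⟩
              rw [W_seqW_cons, word_pair, W_cons0, ← mul_assoc, ← mul_assoc, H.mm, one_mul,
                W_append, W_seqW_cons S.l a, W_seqW_cons S.l b, mul_assoc]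

private theorem comm_W (S : Sys T) {d : T} (hd : d ∈ S.D) (w : List Ltr) : d * W S.l w = W S.l w * d := by
  induction w with
  | nil => simp [W]
  | cons x w ih =>
    rw [W_cons0, ← mul_assoc, (S.comm d hd false x 0).eq, mul_assoc, ih, mul_assoc]

theorem elt_seq (S : Sys T) (t : T) : ∃ K : ℕ, ∀ r : List Item, K ≤ r.length →
    ∃ L : List (List Item × T), (∀ a ∈ L, a.2 ∈ S.D ∧ r.length ≤ a.1.length + K) ∧
      t * W S.l (seqW r) = (L.map fun a => W S.l (seqW a.1) * a.2).sum := by
  induction t using S.induction with
  | hD d hd =>
    refine ⟨0, fun r _ => ⟨[(r, d)], ?_, ?_⟩⟩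
    · intro a ha
      rw [List.mem_singleton] at ha
      subst ha
      exact ⟨hd, by simp⟩
    · simp [comm_W S hd]
  | hl st x n =>
    refine ⟨n + 2, fun r hr => ?_⟩
    rcases letter_seq S st x n r hr with h0 | ⟨r', h1, h2⟩
    · exact ⟨[], by simp, by simp [h0]⟩
    · refine ⟨[(r', 1)], ?_, ?_⟩
      · intro a ha
        rw [List.mem_singleton] at ha
        subst ha
        refine ⟨S.D.one_mem, ?_⟩
        simp only
        omega
      · simp [h2]
  | hadd a b iha ihb =>
    obtain ⟨Ka, ha⟩ := iha
    obtain ⟨Kb, hb⟩ := ihb
    refine ⟨max Ka Kb, fun r hr => ?_⟩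
    obtain ⟨La, hLa, ea⟩ := ha r (le_trans (le_max_left _ _) hr)
    obtain ⟨Lb, hLb, eb⟩ := hb r (le_trans (le_max_right _ _) hr)
    refine ⟨La ++ Lb, ?_, ?_⟩
    · intro c hc
      rw [List.mem_append] at hc
      rcases hc with hc | hc
      · have := hLa c hc
        exact ⟨this.1, le_trans this.2 (by omega)⟩
      · have := hLb c hc
        exact ⟨this.1, le_trans this.2 (by omega)⟩
    · rw [add_mul, ea, eb, List.map_append, List.sum_append]
  | hmul a b iha ihb =>
    obtain ⟨Ka, ha⟩ := iha
    obtain ⟨Kb, hb⟩ := ihb
    refine ⟨Ka + Kb, fun r hr => ?_⟩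
    obtain ⟨Lb, hLb, eb⟩ := hb r (by omega)
    have key : ∀ Lb : List (List Item × T),
        (∀ c ∈ Lb, c.2 ∈ S.D ∧ r.length ≤ c.1.length + Kb) →
        ∃ L : List (List Item × T), (∀ c ∈ L, c.2 ∈ S.D ∧ r.length ≤ c.1.length + (Ka + Kb)) ∧
          a * (Lb.map fun c => W S.l (seqW c.1) * c.2).sum
            = (L.map fun c => W S.l (seqW c.1) * c.2).sum := by
      intro Lb
      induction Lb with
      | nil => exact fun _ => ⟨[], by simp, by simp⟩
      | cons c Lb ih =>
        intro hc
        obtain ⟨L1, h1, e1⟩ := ih fun c' hc' => hc c' (List.mem_cons_of_mem _ hc')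
        have hcc := hc c List.mem_cons_self
        obtain ⟨L2, h2, e2⟩ := ha c.1 (by omega)
        refine ⟨(L2.map fun e => (e.1, e.2 * c.2)) ++ L1, ?_, ?_⟩
        · intro e he
          rw [List.mem_append, List.mem_map] at he
          rcases he with ⟨e', he', rfl⟩ | he
          · have := h2 e' he'
            refine ⟨S.D.mul_mem this.1 hcc.1, ?_⟩
            simp only
            omega
          · exact h1 e he
        · rw [List.map_cons, List.sum_cons, mul_add, e1, List.map_append, List.sum_append,
            ← mul_assoc, e2, List.map_map]
          congr 1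
          rw [← List.sum_map_mul_right]
          congr 1
          apply List.map_congr_left
          intro e _
          simp [mul_assoc]
    obtain ⟨L, hL, e⟩ := key Lb hLb
    exact ⟨L, hL, by rw [mul_assoc, eb, e]⟩

end P193.L
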