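import Vale.Agent.Lib.P193.L.Phi

/-!
# P193 part L, module Span: spanning by `d α β*` (L3)

The set of the finite sums of `d * (mon α * smon β)`, `d ∈ D`, contains `0`, `1`, is stable under
addition and left multiplication by `D` and by plain letters (`D` commutes with the letters), and
by star letters: show, by induction on the length of `α`, that `l true x n * (mon α * smon β)` is a sum of terms
`mon α' * smon β'`. `α = []`: clear. `α = (y,k) :: α₁`: if `n = k`: `l true x n * l false y n` is `0` or
`1` or (`x = y = u`) `z z* + u u*` (level `n`): use the induction hypothesis for `α₁`, then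
multiply by a plain letter. If `k < n`: `b1` with `st = true`; if `n < k`: `b2` with `st = false`. Use
`Sys.left_induction`.
-/

namespace P193.L

universe u
variable {T : Type u} [Ring T]

private theorem mem_plain (l : Bool → Ltr → ℕ → T) (y : Ltr) (k : ℕ) {t : T}
    (ht : t ∈ AddSubmonoid.closure {t | ∃ α β : MW, t = mon l α * smon l β}) :
    l false y k * t ∈ AddSubmonoid.closure {t | ∃ α β : MW, t = mon l α * smon l β} := by
  induction ht using AddSubmonoid.closure_induction with
  | mem t ht =>
    obtain ⟨α, β, rfl⟩ := ht
    refine AddSubmonoid.subset_closure ⟨(y, k) :: α, β, ?_⟩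
    simp [mon, mul_assoc]
  | zero => rw [mul_zero]; exact zero_mem _
  | add a b _ _ ha hb => rw [mul_add]; exact add_mem ha hb

private theorem mem_star {l : Bool → Ltr → ℕ → T} (h : IsLFam l) (α β : MW) (x : Ltr) (n : ℕ) :
    l true x n * (mon l α * smon l β) ∈
      AddSubmonoid.closure {t | ∃ α β : MW, t = mon l α * smon l β} := by
  induction α generalizing x n with
  | nil =>
    refine AddSubmonoid.subset_closure ⟨[], (x, n) :: β, ?_⟩
    simp [mon, smon]
  | cons a α ih =>
    obtain ⟨y, k⟩ := a
    have e : mon l ((y, k) :: α) = l false y k * mon l α := by simp [mon]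
    rw [e, mul_assoc, ← mul_assoc]
    have hbase : mon l α * smon l β ∈
        AddSubmonoid.closure {t | ∃ α β : MW, t = mon l α * smon l β} :=
      AddSubmonoid.subset_closure ⟨α, β, rfl⟩
    rcases Nat.lt_trichotomy n k with hlt | heq | hgt
    · rw [h.b2 k n false y x hlt, mul_assoc]
      exact mem_plain l _ _ (ih x n)
    · subst heq
      cases x <;> cases y
      · rw [h.zz, one_mul]; exact hbase
      · rw [h.zu, zero_mul]; exact zero_mem _
      · rw [h.zm, zero_mul]; exact zero_mem _
      · rw [h.uz, zero_mul]; exact zero_mem _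
      · rw [h.uu, add_mul, mul_assoc, mul_assoc]
        exact add_mem (mem_plain l _ _ (ih .z n)) (mem_plain l _ _ (ih .u n))
      · rw [h.um, zero_mul]; exact zero_mem _
      · rw [h.mz, zero_mul]; exact zero_mem _
      · rw [h.mu, zero_mul]; exact zero_mem _
      · rw [h.mm, one_mul]; exact hbase
    · rw [h.b1 n k true x y hgt, mul_assoc]
      exact mem_plain l _ _ (ih x _)

/-- the generators of the additive monoid of all sums `d * (mon α * smon β)` -/
private def gset (S : Sys T) : Set T :=
  {t | ∃ d ∈ S.D, ∃ α β : MW, t = d * (mon S.l α * smon S.l β)}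

private theorem mem_D (S : Sys T) {d : T} (hd : d ∈ S.D) {t : T}
    (ht : t ∈ AddSubmonoid.closure {t | ∃ α β : MW, t = mon S.l α * smon S.l β}) :
    d * t ∈ AddSubmonoid.closure (gset S) := by
  induction ht using AddSubmonoid.closure_induction with
  | mem t ht =>
    obtain ⟨α, β, rfl⟩ := ht
    exact AddSubmonoid.subset_closure ⟨d, hd, α, β, rfl⟩
  | zero => rw [mul_zero]; exact zero_mem _
  | add a b _ _ ha hb => rw [mul_add]; exact add_mem ha hb

private theorem mem_all (S : Sys T) (r : T) : r ∈ AddSubmonoid.closure (gset S) := by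
  refine S.left_induction (p := fun r => r ∈ AddSubmonoid.closure (gset S)) (zero_mem _) ?_
    (fun a b ha hb => add_mem ha hb) ?_ ?_ r
  · refine AddSubmonoid.subset_closure ⟨1, S.D.one_mem, [], [], ?_⟩
    simp [mon, smon]
  · intro d hd a ha
    induction ha using AddSubmonoid.closure_induction with
    | mem t ht =>
      obtain ⟨d', hd', α, β, rfl⟩ := ht
      exact AddSubmonoid.subset_closure ⟨d * d', S.D.mul_mem hd hd', α, β, by rw [mul_assoc]⟩
    | zero => rw [mul_zero]; exact zero_mem _
    | add a b _ _ ha hb => rw [mul_add]; exact add_mem ha hb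
  · intro st x n a ha
    induction ha using AddSubmonoid.closure_induction with
    | mem t ht =>
      obtain ⟨d', hd', α, β, rfl⟩ := ht
      rw [← mul_assoc, ← (S.comm d' hd' st x n).eq, mul_assoc]
      refine mem_D S hd' ?_
      cases st with
      | false => exact mem_plain S.l x n (AddSubmonoid.subset_closure ⟨α, β, rfl⟩)
      | true => exact mem_star S.fam α β x n
    | zero => rw [mul_zero]; exact zero_mem _
    | add a b _ _ ha hb => rw [mul_add]; exact add_mem ha hb

theorem Sys.span (S : Sys T) (r : T) : ∃ L : List (T × MW × MW), (∀ a ∈ L, a.1 ∈ S.D) ∧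
    r = (L.map fun a => a.1 * (mon S.l a.2.1 * smon S.l a.2.2)).sum := by
  have h := mem_all S r
  induction h using AddSubmonoid.closure_induction with
  | mem t ht =>
    obtain ⟨d, hd, α, β, rfl⟩ := ht
    refine ⟨[(d, α, β)], ?_, by simp⟩
    intro a ha
    rw [List.mem_singleton.1 ha]
    exact hd
  | zero => exact ⟨[], by simp, by simp⟩
  | add a b _ _ ha hb =>
    obtain ⟨La, h1, h2⟩ := ha
    obtain ⟨Lb, h3, h4⟩ := hb
    refine ⟨La ++ Lb, ?_, ?_⟩
    · intro c hc
      rcases List.mem_append.1 hc with hc | hc
      · exact h1 c hc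
      · exact h3 c hc
    · rw [List.map_append, List.sum_append, ← h2, ← h4]

end P193.L
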